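import Vale.Agent.Lib.P047F.II.CountX

/-!
# P047F II/CountE: existence of a balanced vector
-/

open MeasureTheory Finset

namespace P047F

variable {Q J : Type} [Fintype Q] [Fintype J]

/-- coefficients of `cos(πt)^a` -/
private noncomputable def CountE_cf (a : ℕ) (z : ℤ) : ℂ :=
  if a = 0 then (if z = 0 then 1 else 0)
  else if a = 1 then (if z = 1 then 1 / 2 else if z = -1 then 1 / 2 else 0)
  else (if z = 0 then 1 / 2 else if z = 2 then 1 / 4 else if z = -2 then 1 / 4 else 0)

private theorem CountE_cf_ne {a : ℕ} (ha : a ≤ 2) {z : ℤ} (h : CountE_cf a z ≠ 0) :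
    |z| ≤ a ∧ Even (z - a) := by
  unfold CountE_cf at h
  interval_cases a
  · by_cases h1 : z = 0
    · subst h1
      decide
    · simp [h1] at h
  · by_cases h1 : z = 1
    · subst h1
      decide
    · by_cases h2 : z = -1
      · subst h2
        decide
      · simp [h1, h2] at h
  · by_cases h1 : z = 0
    · subst h1
      decide
    · by_cases h2 : z = 2
      · subst h2
        decide
      · by_cases h3 : z = -2
        · subst h3
          decide
        · simp [h1, h2, h3] at h

private theorem CountE_cos {a : ℕ} (ha : a ≤ 2) (t : ℝ) :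
    ((Real.cos (Real.pi * t) ^ a : ℝ) : ℂ) =
      ∑ z ∈ Finset.Icc (-2 : ℤ) 2,
        CountE_cf a z * Complex.exp (Complex.I * Real.pi * ((z : ℂ) * (t : ℂ))) := by
  have hI : Finset.Icc (-2 : ℤ) 2 = {-2, -1, 0, 1, 2} := by decide
  set E := Complex.exp (Complex.I * Real.pi * t) with hE
  set E' := Complex.exp (-(Complex.I * Real.pi * t)) with hE'
  have hEE : E * E' = 1 := by
    rw [hE, hE', ← Complex.exp_add, add_neg_cancel, Complex.exp_zero]
  have hcos : ((Real.cos (Real.pi * t) : ℝ) : ℂ) = (E + E') / 2 := by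
    rw [Complex.ofReal_cos, Complex.cos, hE, hE']
    push_cast
    congr 2
    · congr 1
      ring
    · congr 1
      ring
  have e2 : Complex.exp (Complex.I * Real.pi * (((2 : ℤ) : ℂ) * (t : ℂ))) = E ^ 2 := by
    rw [hE, ← Complex.exp_nat_mul]
    congr 1
    push_cast
    ring
  have e1 : Complex.exp (Complex.I * Real.pi * (((1 : ℤ) : ℂ) * (t : ℂ))) = E := by
    rw [hE]
    congr 1
    push_cast
    ring
  have e0 : Complex.exp (Complex.I * Real.pi * (((0 : ℤ) : ℂ) * (t : ℂ))) = 1 := by
    simp
  have e3 : Complex.exp (Complex.I * Real.pi * (((-1 : ℤ) : ℂ) * (t : ℂ))) = E' := by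
    rw [hE']
    congr 1
    push_cast
    ring
  have e4 : Complex.exp (Complex.I * Real.pi * (((-2 : ℤ) : ℂ) * (t : ℂ))) = E' ^ 2 := by
    rw [hE', ← Complex.exp_nat_mul]
    congr 1
    push_cast
    ring
  rw [hI, Finset.sum_insert (by decide), Finset.sum_insert (by decide),
    Finset.sum_insert (by decide), Finset.sum_insert (by decide), Finset.sum_singleton, e0, e1,
    e2, e3, e4]
  rw [Complex.ofReal_pow, hcos]
  unfold CountE_cf
  interval_cases a
  · norm_num
  · norm_num
    ring
  · norm_num
    linear_combination (1 / 2 : ℂ) * hEE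

/-- existence.  `cos(πt)^a = Σ_z coef(a,z) e^{iπ z t}` with `z` of the parity of `a`, `|z| ≤ a`;
expand the product, exchange sum and integral; if there is no balanced `z`, each term vanishes by
`box_exp` (`k_j = Σ z A_j` is even by the parity hypothesis). -/
theorem exist_of_pos (A : Q → J → ℤ) (a : Q → ℕ) (ha : ∀ x, a x ≤ 2)
    (hpar : ∀ j, Even (∑ x, (a x : ℤ) * A x j))
    (hpos : 0 < ∫ c in box J, ∏ x, Real.cos (Real.pi * ev A c x) ^ (a x)) :
    ∃ z : Q → ℤ, (∀ x, |z x| ≤ a x ∧ Even (z x - a x)) ∧ ∀ j, ∑ x, z x * A x j = 0 := by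
  classical
  by_contra hno
  apply hpos.ne'
  have hC : ((∫ c in box J, ∏ x, Real.cos (Real.pi * ev A c x) ^ (a x) : ℝ) : ℂ) = 0 := by
    rw [← integral_complex_ofReal]
    have hexp : ∀ c : J → ℝ, ((∏ x, Real.cos (Real.pi * ev A c x) ^ (a x) : ℝ) : ℂ) =
        ∑ z ∈ Fintype.piFinset (fun _ : Q => Finset.Icc (-2 : ℤ) 2),
          (∏ x, CountE_cf (a x) (z x)) * Complex.exp (Complex.I * Real.pi *
            ∑ j, ((∑ x, z x * A x j : ℤ) : ℂ) * (c j : ℂ)) := by
      intro c
      rw [Complex.ofReal_prod, Finset.prod_congr rfl fun x _ => CountE_cos (ha x) (ev A c x),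
        Finset.prod_univ_sum]
      refine Finset.sum_congr rfl fun z _ => ?_
      rw [Finset.prod_mul_distrib, ← Complex.exp_sum]
      congr 2
      rw [← Finset.mul_sum]
      congr 1
      unfold ev
      push_cast
      simp only [Finset.mul_sum, Finset.sum_mul]
      rw [Finset.sum_comm]
      refine Finset.sum_congr rfl fun j _ => Finset.sum_congr rfl fun x _ => ?_
      ring
    simp_rw [hexp]
    have hint : ∀ k : J → ℤ, IntegrableOn (fun c : J → ℝ => Complex.exp (Complex.I * Real.pi *
        ∑ j, (k j : ℂ) * (c j : ℂ))) (box J) := by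
      intro k
      refine Measure.integrableOn_of_bounded (M := 1) ?_ ?_ ?_
      · rw [volume_box]
        exact ENNReal.one_ne_top
      · refine Continuous.aestronglyMeasurable ?_
        fun_prop
      · refine Filter.Eventually.of_forall fun c => ?_
        have : Complex.I * Real.pi * ∑ j, (k j : ℂ) * (c j : ℂ) =
            ((Real.pi * ∑ j, (k j : ℝ) * c j : ℝ) : ℂ) * Complex.I := by
          push_cast
          ring
        rw [this, Complex.norm_exp_ofReal_mul_I]
    rw [integral_finsetSum _ fun z _ => (hint _).const_mul _]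
    refine Finset.sum_eq_zero fun z _ => ?_
    rw [integral_const_mul]
    by_cases hz : ∏ x, CountE_cf (a x) (z x) = 0
    · rw [hz, zero_mul]
    · have hzx : ∀ x, |z x| ≤ a x ∧ Even (z x - a x) := fun x =>
        CountE_cf_ne (ha x) (Finset.prod_ne_zero_iff.1 hz x (Finset.mem_univ x))
      have hk : ∀ j, Even (∑ x, z x * A x j) := by
        intro j
        have e1 : ∑ x, z x * A x j = (∑ x, (z x - a x) * A x j) + ∑ x, (a x : ℤ) * A x j := by
          rw [← Finset.sum_add_distrib]
          refine Finset.sum_congr rfl fun x _ => ?_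
          ring
        rw [e1]
        refine Even.add ?_ (hpar j)
        exact Finset.even_sum _ fun x _ => (hzx x).2.mul_right _
      rw [box_exp (fun j => ∑ x, z x * A x j) hk, if_neg, mul_zero]
      intro h0
      exact hno ⟨z, hzx, fun j => congrFun h0 j⟩
  exact_mod_cast hC

end P047F
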