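import Vale.Agent.Lib.P047F.II.CountT

/-!
# P047F II/CountL: consequences of the tilted counting formula
-/

open MeasureTheory Finset

namespace P047F

variable {Q J : Type} [Fintype Q] [Fintype J]

private theorem CountL_exp (a t : ℝ) :
    Complex.exp ((a : ℂ) + Complex.I * Real.pi * (t : ℂ)) +
        Complex.exp (-(a : ℂ) - Complex.I * Real.pi * (t : ℂ)) =
      ((2 * Real.cosh a * Real.cos (Real.pi * t) : ℝ) : ℂ) +
        ((2 * Real.sinh a * Real.sin (Real.pi * t) : ℝ) : ℂ) * Complex.I := by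
  have e1 : ((a : ℂ) + Complex.I * Real.pi * (t : ℂ)).re = a := by simp
  have e2 : ((a : ℂ) + Complex.I * Real.pi * (t : ℂ)).im = Real.pi * t := by simp
  have e3 : (-(a : ℂ) - Complex.I * Real.pi * (t : ℂ)).re = -a := by simp
  have e4 : (-(a : ℂ) - Complex.I * Real.pi * (t : ℂ)).im = -(Real.pi * t) := by simp
  apply Complex.ext
  · rw [Complex.add_re, Complex.exp_re, Complex.exp_re, e1, e2, e3, e4, Real.cos_neg,
      Complex.add_re, Complex.ofReal_re, Complex.re_ofReal_mul, Complex.I_re, mul_zero, add_zero,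
      Real.cosh_eq]
    ring
  · rw [Complex.add_im, Complex.exp_im, Complex.exp_im, e1, e2, e3, e4, Real.sin_neg,
      Complex.add_im, Complex.ofReal_im, Complex.im_ofReal_mul, Complex.I_im, mul_one, zero_add,
      Real.sinh_eq]
    ring

private theorem CountL_norm (a t : ℝ) :
    ‖Complex.exp ((a : ℂ) + Complex.I * Real.pi * (t : ℂ)) +
        Complex.exp (-(a : ℂ) - Complex.I * Real.pi * (t : ℂ))‖ ≤
      2 * Real.exp (a ^ 2 / 2) * Gt (Real.tanh a) t := by
  have hc : 0 < Real.cosh a := Real.cosh_pos a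
  have h1 : ‖Complex.exp ((a : ℂ) + Complex.I * Real.pi * (t : ℂ)) +
        Complex.exp (-(a : ℂ) - Complex.I * Real.pi * (t : ℂ))‖ =
      2 * Real.cosh a * Gt (Real.tanh a) t := by
    rw [CountL_exp, Complex.norm_add_mul_I]
    unfold Gt
    have e1 : (2 * Real.cosh a * Real.cos (Real.pi * t)) ^ 2 +
        (2 * Real.sinh a * Real.sin (Real.pi * t)) ^ 2 =
        (2 * Real.cosh a) ^ 2 * (Real.cos (Real.pi * t) ^ 2 +
          Real.tanh a ^ 2 * Real.sin (Real.pi * t) ^ 2) := by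
      rw [Real.tanh_eq_sinh_div_cosh]
      field_simp
    rw [e1, Real.sqrt_mul (sq_nonneg _), Real.sqrt_sq (by positivity)]
  rw [h1]
  refine mul_le_mul_of_nonneg_right ?_ (Gt_nonneg _ _)
  have := Real.cosh_le_exp_half_sq a
  linarith

/-- `h = 0` -/
theorem count_eq (A : Q → J → ℤ) (Y : Finset Q) (hpar : ∀ j, Even (∑ x ∈ Y, A x j)) :
    ((Valid A Y).card : ℝ) =
      2 ^ Y.card * ∫ c in box J, ∏ x ∈ Y, Real.cos (Real.pi * ev A c x) := by
  have h1 := count_tilt A Y hpar (fun _ => 0)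
  have h2 : (∑ z ∈ Valid A Y, Real.exp (∑ x ∈ Y, (z x : ℝ) * (fun _ : Q => (0 : ℝ)) x) : ℝ) =
      ((Valid A Y).card : ℝ) := by
    simp
  rw [h2] at h1
  have h3 : ∀ c : J → ℝ, ∏ x ∈ Y, (Complex.exp ((((fun _ : Q => (0 : ℝ)) x : ℝ) : ℂ) +
        Complex.I * Real.pi * (ev A c x : ℂ)) +
        Complex.exp (-(((fun _ : Q => (0 : ℝ)) x : ℝ) : ℂ) -
          Complex.I * Real.pi * (ev A c x : ℂ))) =
      ((2 ^ Y.card * ∏ x ∈ Y, Real.cos (Real.pi * ev A c x) : ℝ) : ℂ) := by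
    intro c
    rw [← Finset.prod_const, ← Finset.prod_mul_distrib, Complex.ofReal_prod]
    refine Finset.prod_congr rfl fun x _ => ?_
    rw [CountL_exp]
    simp
  rw [setIntegral_congr_fun box_measurable (fun c _ => h3 c)] at h1
  rw [integral_complex_ofReal] at h1
  have h4 := Complex.ofReal_injective h1
  rw [h4, integral_const_mul]

open Classical in
/-- the indicator exponents of `Y` -/
noncomputable def aY (Y : Finset Q) (x : Q) : ℕ := if x ∈ Y then 1 else 0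

/-- `|e^{h+iπt} + e^{-h-iπt}| = 2 cosh h · Gt (tanh h) t ≤ 2 e^{h²/2} Gt (tanh h) t`, so the tilted sum
is at most `2^|Y| e^{Σh²/2} ∫_box FG` -/
theorem tilt_le (A : Q → J → ℤ) (Y : Finset Q) (hpar : ∀ j, Even (∑ x ∈ Y, A x j))
    (h : Q → ℝ) :
    ENNReal.ofReal (∑ z ∈ Valid A Y, Real.exp (∑ x ∈ Y, (z x : ℝ) * h x)) ≤
      ENNReal.ofReal (2 ^ Y.card * Real.exp ((∑ x ∈ Y, h x ^ 2) / 2)) *
      ∫⁻ c in box J, ENNReal.ofReal (FG A (aY Y) (fun x => Real.tanh (h x)) c) := by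
  have h0 : 0 ≤ ∑ z ∈ Valid A Y, Real.exp (∑ x ∈ Y, (z x : ℝ) * h x) :=
    Finset.sum_nonneg fun z _ => (Real.exp_pos _).le
  have h1 : ENNReal.ofReal (∑ z ∈ Valid A Y, Real.exp (∑ x ∈ Y, (z x : ℝ) * h x)) =
      ‖((∑ z ∈ Valid A Y, Real.exp (∑ x ∈ Y, (z x : ℝ) * h x) : ℝ) : ℂ)‖ₑ := by
    rw [← ofReal_norm, Complex.norm_real, Real.norm_eq_abs, abs_of_nonneg h0]
  rw [h1, count_tilt A Y hpar h, ← lintegral_const_mul' _ _ ENNReal.ofReal_ne_top]
  refine (enorm_integral_le_lintegral_enorm _).trans (lintegral_mono fun c => ?_)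
  have hK : 0 ≤ (2 : ℝ) ^ Y.card * Real.exp ((∑ x ∈ Y, h x ^ 2) / 2) := by positivity
  rw [← ENNReal.ofReal_mul hK, ← ofReal_norm]
  refine ENNReal.ofReal_le_ofReal ?_
  have hFG : FG A (aY Y) (fun x => Real.tanh (h x)) c =
      ∏ x ∈ Y, Gt (Real.tanh (h x)) (ev A c x) := by
    unfold FG aY
    rw [← Finset.prod_subset (Finset.subset_univ Y)]
    · refine Finset.prod_congr rfl fun x hx => ?_
      rw [if_pos hx, pow_one]
    · intro x _ hx
      rw [if_neg hx, pow_zero]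
  rw [hFG, norm_prod, Finset.sum_div, Real.exp_sum, ← Finset.prod_const,
    ← Finset.prod_mul_distrib, ← Finset.prod_mul_distrib]
  exact Finset.prod_le_prod (fun x _ => norm_nonneg _) fun x _ => CountL_norm (h x) (ev A c x)

end P047F
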