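import Vale.Agent.Lib.P047F.II.CountX

/-!
# P047F II/CountT: tilted counting formula
-/

open MeasureTheory Finset

namespace P047F

variable {Q J : Type} [Fintype Q] [Fintype J]

/-- the allowed values at `x` -/
private def CountT_S [DecidableEq Q] (Y : Finset Q) (x : Q) : Finset ℤ :=
  if x ∈ Y then ({1, -1} : Finset ℤ) else {0}

private theorem CountT_expand [DecidableEq Q] (Y : Finset Q) (g : Q → ℂ) :
    ∏ x ∈ Y, (Complex.exp (g x) + Complex.exp (-(g x))) =
      ∑ z ∈ Fintype.piFinset (CountT_S Y), Complex.exp (∑ x, (z x : ℂ) * g x) := by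
  have h1 : ∏ x ∈ Y, (Complex.exp (g x) + Complex.exp (-(g x))) =
      ∏ x, ∑ s ∈ CountT_S Y x, Complex.exp ((s : ℂ) * g x) := by
    rw [← Finset.prod_subset (Finset.subset_univ Y)]
    · refine Finset.prod_congr rfl fun x hx => ?_
      rw [CountT_S, if_pos hx, Finset.sum_insert (by decide), Finset.sum_singleton]
      push_cast
      rw [one_mul, neg_one_mul]
    · intro x _ hx
      rw [CountT_S, if_neg hx, Finset.sum_singleton]
      simp
  rw [h1, Finset.prod_univ_sum]
  refine Finset.sum_congr rfl fun z _ => ?_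
  rw [Complex.exp_sum]

private theorem CountT_mem [DecidableEq Q] (Y : Finset Q) (z : Q → ℤ) :
    z ∈ Fintype.piFinset (CountT_S Y) ↔ (∀ x ∈ Y, z x = 1 ∨ z x = -1) ∧ (∀ x, x ∉ Y → z x = 0) := by
  rw [Fintype.mem_piFinset]
  constructor
  · intro h
    refine ⟨fun x hx => ?_, fun x hx => ?_⟩
    · have h1 := h x
      rw [CountT_S, if_pos hx] at h1
      simpa using h1
    · have h1 := h x
      rw [CountT_S, if_neg hx] at h1
      simpa using h1
  · rintro ⟨h1, h2⟩ x
    by_cases hx : x ∈ Y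
    · rw [CountT_S, if_pos hx]
      simpa using h1 x hx
    · rw [CountT_S, if_neg hx]
      simpa using h2 x hx

omit [Fintype J] in
private theorem CountT_even [DecidableEq Q] (A : Q → J → ℤ) (Y : Finset Q) (z : Q → ℤ)
    (h1 : ∀ x ∈ Y, z x = 1 ∨ z x = -1) (h2 : ∀ x, x ∉ Y → z x = 0) (j : J)
    (hj : Even (∑ x ∈ Y, A x j)) : Even (∑ x, z x * A x j) := by
  have e1 : ∑ x, z x * A x j = ∑ x ∈ Y, z x * A x j := by
    symm
    refine Finset.sum_subset (Finset.subset_univ Y) fun x _ hx => ?_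
    rw [h2 x hx, zero_mul]
  have e2 : ∑ x ∈ Y, z x * A x j = ∑ x ∈ Y, A x j + ∑ x ∈ Y, (z x - 1) * A x j := by
    rw [← Finset.sum_add_distrib]
    exact Finset.sum_congr rfl fun x _ => by ring
  rw [e1, e2]
  refine hj.add (Finset.even_sum _ fun x hx => ?_)
  refine Even.mul_right ?_ _
  rcases h1 x hx with h | h <;> rw [h] <;> decide

/-- tilted counting formula: expand the product over `x ∈ Y` (`Finset.prod_add` or
`Finset.prod_univ_sum`), exchange sum and integral, `box_exp` (with `k_j = Σ z A_j`, even since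
`Σ_{x∈Y} A x j` is even and `z x` is odd on `Y`) -/
theorem count_tilt (A : Q → J → ℤ) (Y : Finset Q) (hpar : ∀ j, Even (∑ x ∈ Y, A x j))
    (h : Q → ℝ) :
    ((∑ z ∈ Valid A Y, Real.exp (∑ x ∈ Y, (z x : ℝ) * h x) : ℝ) : ℂ) =
      ∫ c in box J, ∏ x ∈ Y, (Complex.exp ((h x : ℂ) + Complex.I * Real.pi * (ev A c x : ℂ)) +
        Complex.exp (-(h x : ℂ) - Complex.I * Real.pi * (ev A c x : ℂ))) := by
  classical
  have e1 : ∀ c : J → ℝ,
      ∏ x ∈ Y, (Complex.exp ((h x : ℂ) + Complex.I * Real.pi * (ev A c x : ℂ)) +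
        Complex.exp (-(h x : ℂ) - Complex.I * Real.pi * (ev A c x : ℂ))) =
      ∑ z ∈ Fintype.piFinset (CountT_S Y), Complex.exp (∑ x, (z x : ℂ) * (h x : ℂ)) *
        Complex.exp (Complex.I * Real.pi * ∑ j, ((∑ x, z x * A x j : ℤ) : ℂ) * (c j : ℂ)) := by
    intro c
    have e2 := CountT_expand Y (fun x => (h x : ℂ) + Complex.I * Real.pi * (ev A c x : ℂ))
    have e3 : ∏ x ∈ Y, (Complex.exp ((h x : ℂ) + Complex.I * Real.pi * (ev A c x : ℂ)) +
        Complex.exp (-(h x : ℂ) - Complex.I * Real.pi * (ev A c x : ℂ))) =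
        ∏ x ∈ Y, (Complex.exp ((h x : ℂ) + Complex.I * Real.pi * (ev A c x : ℂ)) +
        Complex.exp (-((h x : ℂ) + Complex.I * Real.pi * (ev A c x : ℂ)))) := by
      refine Finset.prod_congr rfl fun x _ => ?_
      rw [neg_add, sub_eq_add_neg]
    rw [e3, e2]
    refine Finset.sum_congr rfl fun z _ => ?_
    rw [← Complex.exp_add]
    congr 1
    have e4 : ∑ x, (z x : ℂ) * (ev A c x : ℂ) = ∑ j, ((∑ x, z x * A x j : ℤ) : ℂ) * (c j : ℂ) := by
      simp only [ev]
      push_cast
      simp only [Finset.mul_sum, Finset.sum_mul]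
      rw [Finset.sum_comm]
      refine Finset.sum_congr rfl fun j _ => Finset.sum_congr rfl fun x _ => by ring
    rw [← e4, Finset.mul_sum, ← Finset.sum_add_distrib]
    refine Finset.sum_congr rfl fun x _ => by ring
  simp only [e1]
  rw [integral_finsetSum]
  · have e5 : ∀ z ∈ Fintype.piFinset (CountT_S Y),
        ∫ c in box J, Complex.exp (∑ x, (z x : ℂ) * (h x : ℂ)) *
          Complex.exp (Complex.I * Real.pi * ∑ j, ((∑ x, z x * A x j : ℤ) : ℂ) * (c j : ℂ)) =
        if (∀ j, ∑ x, z x * A x j = 0) then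
          ((Real.exp (∑ x ∈ Y, (z x : ℝ) * h x) : ℝ) : ℂ) else 0 := by
      intro z hz
      rw [CountT_mem] at hz
      rw [integral_const_mul, box_exp (fun j => ∑ x, z x * A x j)
        (fun j => CountT_even A Y z hz.1 hz.2 j (hpar j))]
      have e6 : ∑ x, (z x : ℂ) * (h x : ℂ) = ((∑ x ∈ Y, (z x : ℝ) * h x : ℝ) : ℂ) := by
        push_cast
        symm
        refine Finset.sum_subset (Finset.subset_univ Y) fun x _ hx => ?_
        rw [hz.2 x hx]; simp
      by_cases hk : ∀ j, ∑ x, z x * A x j = 0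
      · have hk' : (fun j => ∑ x, z x * A x j) = 0 := funext hk
        rw [if_pos hk, if_pos hk', mul_one, e6, Complex.ofReal_exp]
      · have hk' : ¬ ((fun j => ∑ x, z x * A x j) = 0) := fun h0 => hk fun j => congrFun h0 j
        rw [if_neg hk, if_neg hk', mul_zero]
    rw [Finset.sum_congr rfl e5, ← Finset.sum_filter, Complex.ofReal_sum]
    refine Finset.sum_congr ?_ fun z _ => rfl
    ext z
    rw [mem_Valid, Finset.mem_filter, CountT_mem, and_assoc]
  · intro z _
    have hc : Continuous fun c : J → ℝ => Complex.exp (∑ x, (z x : ℂ) * (h x : ℂ)) *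
        Complex.exp (Complex.I * Real.pi * ∑ j, ((∑ x, z x * A x j : ℤ) : ℂ) * (c j : ℂ)) := by
      fun_prop
    refine (hc.integrableOn_Icc (a := 0) (b := 1)).mono_set ?_
    intro c hc
    have h1 : ∀ j, c j ∈ Set.Ico (0 : ℝ) 1 := fun j => hc j (Set.mem_univ j)
    exact ⟨fun j => (h1 j).1, fun j => (h1 j).2.le⟩

end P047F
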