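import Vale.Agent.Lib.P047F.II.CountX
import Vale.Agent.Lib.P047F.II.CountE
import Vale.Agent.Lib.P047F.II.CountT
import Vale.Agent.Lib.P047F.II.CountL

/-!
# P047F II/Count: counting balanced sign vectors by integrals over the box
(see CountX, CountE, CountT, CountL)
-/
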