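import Vale.Agent.Lib.P047F.II.Shell

/-!
# P047F II/Ints: the two integral estimates over the unit box
-/

open MeasureTheory Finset
open scoped ENNReal

namespace P047F

variable {Q J : Type} [Fintype Q] [Fintype J]

/-- the hypotheses of the local limit theorem -/
structure LLT (A : Q → J → ℤ) (a : Q → ℕ) (κ δ : ℝ) : Prop where
  κpos : 0 < κ
  κle : κ ≤ 1
  δpos : 0 < δ
  δle : δ ≤ cb κ / 20
  cov : Cover A δ (1 / 1000)
  inj : ∀ c : J → ℝ, (∀ x, ev A c x = 0) → c = 0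
  nice : ∀ c : J → ℝ, κ * En A Finset.univ c ≤ ∑ x, (a x : ℝ) * dz (ev A c x) ^ 2
  fin : Hl A a 0 < ⊤
  half : ENNReal.ofReal (1 / 2) * Hl A a 0 ≤
    ∫⁻ v in SB A (1 / 1000), ENNReal.ofReal (Wt A a 0 v)

omit [Fintype Q] in
private theorem Ints_ev_zero (A : Q → J → ℤ) (x : Q) : ev A (0 : J → ℝ) x = 0 := by
  simp [ev]

private theorem Ints_meas (A : Q → J → ℤ) (a : Q → ℕ) (μ : Q → ℝ) :
    Measurable fun c : J → ℝ => ENNReal.ofReal (FG A a μ c) :=
  (FG_continuous A a μ).measurable.ennreal_ofReal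

private theorem Ints_per (A : Q → J → ℤ) (a : Q → ℕ) (μ : Q → ℝ) (c : J → ℝ) (k : J → ℤ) :
    ENNReal.ofReal (FG A a μ (fun j => c j + k j)) = ENNReal.ofReal (FG A a μ c) := by
  rw [FG_periodic]

/-- upper bound: main part by `unfold_le` and `FG_le_Wt` with centre `0`, rest by `shell_total` -/
theorem upperInt {A : Q → J → ℤ} {a : Q → ℕ} {κ δ : ℝ} (h : LLT A a κ δ) (μ : Q → ℝ) :
    ∫⁻ c in box J, ENNReal.ofReal (FG A a μ c) ≤
      ENNReal.ofReal (3 * Real.exp (Real.exp 8 * ∑ x, (a x : ℝ) * μ x ^ 2)) * Hl A a 0 := by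
  set E : ℝ := Real.exp (Real.exp 8 * ∑ x, (a x : ℝ) * μ x ^ 2) with hE
  have hE0 : 0 < E := Real.exp_pos _
  set B1 : Set (J → ℝ) :=
    {c | c ∈ box J ∧ ∃ k : J → ℤ, (fun j => c j + (k j : ℝ)) ∈ SB A (3 / 1000)} with hB1
  set B2 : Set (J → ℝ) :=
    {c | c ∈ box J ∧ ¬ ∃ k : J → ℤ, (fun j => c j + (k j : ℝ)) ∈ SB A (3 / 1000)} with hB2
  have hsub : box J ⊆ B1 ∪ B2 := by
    intro c hc
    by_cases hk : ∃ k : J → ℤ, (fun j => c j + (k j : ℝ)) ∈ SB A (3 / 1000)
    · exact Or.inl ⟨hc, hk⟩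
    · exact Or.inr ⟨hc, hk⟩
  have h1 : ∫⁻ c in B1, ENNReal.ofReal (FG A a μ c) ≤ ENNReal.ofReal E * Hl A a 0 := by
    refine (unfold_le _ (Ints_meas A a μ) (Ints_per A a μ) (SB A (3 / 1000))).trans ?_
    have h2 : ∫⁻ c in SB A (3 / 1000), ENNReal.ofReal (FG A a μ c) ≤
        ∫⁻ c in SB A (3 / 1000), ENNReal.ofReal E * ENNReal.ofReal (Wt A a 0 c) := by
      refine setLIntegral_mono ((Wt_continuous A a 0).measurable.ennreal_ofReal.const_mul _) ?_
      intro c hc
      have h3 := FG_le_Wt A a μ 0 c (fun x => by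
        rw [sub_zero]
        exact (hc x).trans (by norm_num))
      have h4 : (fun x : Q => ev A (0 : J → ℝ) x - round (ev A (0 : J → ℝ) x)) = (0 : Q → ℝ) := by
        funext x
        rw [Ints_ev_zero]
        simp
      rw [h4, sub_zero] at h3
      rw [← ENNReal.ofReal_mul hE0.le]
      exact ENNReal.ofReal_le_ofReal h3
    refine h2.trans ?_
    rw [lintegral_const_mul _ (Wt_continuous A a 0).measurable.ennreal_ofReal]
    gcongr
    exact setLIntegral_le_lintegral _ _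
  have h2 : ∫⁻ c in B2, ENNReal.ofReal (FG A a μ c) ≤ ENNReal.ofReal (1 / 8 * E) * Hl A a 0 :=
    shell_total h.κpos h.κle A a h.δpos h.δle h.cov h.nice h.fin h.half μ
  calc ∫⁻ c in box J, ENNReal.ofReal (FG A a μ c)
      ≤ ∫⁻ c in B1 ∪ B2, ENNReal.ofReal (FG A a μ c) := lintegral_mono_set hsub
    _ ≤ (∫⁻ c in B1, ENNReal.ofReal (FG A a μ c)) + ∫⁻ c in B2, ENNReal.ofReal (FG A a μ c) :=
        lintegral_union_le _ _ _
    _ ≤ ENNReal.ofReal E * Hl A a 0 + ENNReal.ofReal (1 / 8 * E) * Hl A a 0 := add_le_add h1 h2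
    _ = ENNReal.ofReal (E + 1 / 8 * E) * Hl A a 0 := by
        rw [ENNReal.ofReal_add hE0.le (by positivity), add_mul]
    _ ≤ ENNReal.ofReal (3 * E) * Hl A a 0 := by
        gcongr
        linarith

omit [Fintype Q] in
private theorem Ints_prod_zpow (f : Q → ℤ) (s : Finset Q) :
    ∏ x ∈ s, (-1 : ℝ) ^ (f x) = (-1 : ℝ) ^ (∑ x ∈ s, f x) := by
  classical
  induction s using Finset.induction_on with
  | empty => simp
  | insert x s hx ih =>
    rw [Finset.prod_insert hx, Finset.sum_insert hx, ih, zpow_add₀ (by norm_num)]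

private theorem Ints_ev_add (A : Q → J → ℤ) (c : J → ℝ) (k : J → ℤ) (x : Q) :
    ev A (fun j => c j + (k j : ℝ)) x = ev A c x + ((∑ j, A x j * k j : ℤ) : ℝ) := by
  rw [← ev_int]
  exact ev_add A c (fun j => (k j : ℝ)) x

/-- periodicity of the signed product under the parity hypothesis -/
theorem prod_cos_periodic (A : Q → J → ℤ) (a : Q → ℕ)
    (hpar : ∀ j, Even (∑ x, (a x : ℤ) * A x j)) (c : J → ℝ) (k : J → ℤ) :
    ∏ x, Real.cos (Real.pi * ev A (fun j => c j + k j) x) ^ (a x) =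
      ∏ x, Real.cos (Real.pi * ev A c x) ^ (a x) := by
  have h1 : ∀ x, Real.cos (Real.pi * ev A (fun j => c j + (k j : ℝ)) x) ^ (a x) =
      (-1 : ℝ) ^ ((a x : ℤ) * ∑ j, A x j * k j) * Real.cos (Real.pi * ev A c x) ^ (a x) := by
    intro x
    rw [Ints_ev_add, mul_add, mul_comm Real.pi ((∑ j, A x j * k j : ℤ) : ℝ),
      Real.cos_add_int_mul_pi, mul_pow, mul_comm (a x : ℤ), zpow_mul, zpow_natCast]
  rw [Finset.prod_congr rfl fun x _ => h1 x, Finset.prod_mul_distrib, Ints_prod_zpow]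
  have h2 : Even (∑ x, (a x : ℤ) * ∑ j, A x j * k j) := by
    have h3 : ∑ x, (a x : ℤ) * ∑ j, A x j * k j = ∑ j, k j * ∑ x, (a x : ℤ) * A x j := by
      simp only [Finset.mul_sum]
      rw [Finset.sum_comm]
      refine Finset.sum_congr rfl fun j _ => Finset.sum_congr rfl fun x _ => ?_
      ring
    rw [h3]
    exact Finset.even_sum _ fun j _ => (hpar j).mul_left _
  rw [h2.neg_one_zpow, one_mul]

/-- lower bound.  `|∏ cos^a| = FG a 0` (`Gt_zero`).  On `box ∩ (SB(3/1000) + Z^J)` the product is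
nonnegative (`prod_cos_periodic`), so `∫_box ∏ ≥ ∫⁻_box FG - 2 ∫⁻_{rest} FG`
`≥ ∫⁻_{SB(3/1000)} Wt 0 - 2/8 Hl ≥ (1/2 - 1/4) Hl` (`unfold_ge`; translates of `SB(3/1000)` are
disjoint since `ev k` integer and `≤ 6/1000` forces `ev k = 0`, `k = 0` by `inj`). -/
theorem lowerInt {A : Q → J → ℤ} {a : Q → ℕ} {κ δ : ℝ} (h : LLT A a κ δ)
    (hpar : ∀ j, Even (∑ x, (a x : ℤ) * A x j)) :
    (Hl A a 0).toReal / 4 ≤
      ∫ c in box J, ∏ x, Real.cos (Real.pi * ev A c x) ^ (a x) := by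
  set g : (J → ℝ) → ℝ := fun c => ∏ x, Real.cos (Real.pi * ev A c x) ^ (a x) with hg
  set B1 : Set (J → ℝ) :=
    {c | c ∈ box J ∧ ∃ k : J → ℤ, (fun j => c j + (k j : ℝ)) ∈ SB A (3 / 1000)} with hB1
  set B2 : Set (J → ℝ) :=
    {c | c ∈ box J ∧ ¬ ∃ k : J → ℤ, (fun j => c j + (k j : ℝ)) ∈ SB A (3 / 1000)} with hB2
  -- measurability
  have hmS : MeasurableSet {c : J → ℝ | ∃ k : J → ℤ, (fun j => c j + (k j : ℝ)) ∈ SB A (3 / 1000)} := by
    have e1 : {c : J → ℝ | ∃ k : J → ℤ, (fun j => c j + (k j : ℝ)) ∈ SB A (3 / 1000)} =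
        ⋃ k : J → ℤ, (fun c : J → ℝ => fun j => c j + (k j : ℝ)) ⁻¹' (SB A (3 / 1000)) := by
      ext c
      simp
    rw [e1]
    refine MeasurableSet.iUnion fun k => ?_
    refine (IsClosed.preimage ?_ (SB_closed A _)).measurableSet
    fun_prop
  have hmB1 : MeasurableSet B1 := box_measurable.inter hmS
  have hmB2 : MeasurableSet B2 := box_measurable.inter hmS.compl
  have hdisj : Disjoint B1 B2 := Set.disjoint_left.2 fun c h1 h2 => h2.2 h1.2
  have hun : box J = B1 ∪ B2 := by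
    ext c
    constructor
    · intro hc
      by_cases hk : ∃ k : J → ℤ, (fun j => c j + (k j : ℝ)) ∈ SB A (3 / 1000)
      · exact Or.inl ⟨hc, hk⟩
      · exact Or.inr ⟨hc, hk⟩
    · rintro (hc | hc)
      · exact hc.1
      · exact hc.1
  -- the integrand
  have hgc : Continuous g := by
    refine continuous_finsetProd _ fun x _ => ?_
    exact (Real.continuous_cos.comp (continuous_const.mul (ev_continuous A x))).pow _
  have habs : ∀ c, |g c| = FG A a 0 c := by
    intro c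
    rw [hg]
    unfold FG
    simp only
    rw [Finset.abs_prod]
    refine Finset.prod_congr rfl fun x _ => ?_
    rw [abs_pow, Pi.zero_apply, Gt_zero]
  have hle1 : ∀ c, ‖g c‖ ≤ 1 := by
    intro c
    rw [Real.norm_eq_abs, hg]
    simp only
    rw [Finset.abs_prod]
    refine Finset.prod_le_one (fun x _ => abs_nonneg _) fun x _ => ?_
    rw [abs_pow]
    exact pow_le_one₀ (abs_nonneg _) (Real.abs_cos_le_one _)
  have hgi : IntegrableOn g (box J) := by
    refine Measure.integrableOn_of_bounded (M := 1) ?_ hgc.aestronglyMeasurable ?_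
    · rw [volume_box]
      exact ENNReal.one_ne_top
    · exact Filter.Eventually.of_forall hle1
  have hgi1 : IntegrableOn g B1 := hgi.mono_set fun c hc => hc.1
  have hgi2 : IntegrableOn g B2 := hgi.mono_set fun c hc => hc.1
  -- positivity on B1
  have hpos : ∀ c ∈ B1, 0 ≤ g c := by
    rintro c ⟨-, k, hk⟩
    have h1 : g c = g (fun j => c j + (k j : ℝ)) := (prod_cos_periodic A a hpar c k).symm
    rw [h1]
    refine Finset.prod_nonneg fun x _ => pow_nonneg ?_ _
    apply Real.cos_nonneg_of_mem_Icc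
    have h2 := abs_le.1 (hk x)
    have hp := Real.pi_pos
    constructor
    · nlinarith [h2.1]
    · nlinarith [h2.2]
  have hlint : ∀ B : Set (J → ℝ), MeasurableSet B → B ⊆ box J →
      ∫ c in B, |g c| = (∫⁻ c in B, ENNReal.ofReal (FG A a 0 c)).toReal := by
    intro B _ _
    have e1 : ∫ c in B, |g c| = ∫ c in B, FG A a 0 c := by
      simp only [habs]
    rw [e1, integral_eq_lintegral_of_nonneg_ae
      (Filter.Eventually.of_forall fun c => FG_nonneg A a 0 c)
      (FG_continuous A a 0).aestronglyMeasurable]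
  have hfin := h.fin
  -- the main part
  have hmain : ENNReal.ofReal (1 / 2) * Hl A a 0 ≤ ∫⁻ c in B1, ENNReal.ofReal (FG A a 0 c) := by
    refine h.half.trans ?_
    have h1 : ∫⁻ v in SB A (1 / 1000), ENNReal.ofReal (Wt A a 0 v) ≤
        ∫⁻ v in SB A (3 / 1000), ENNReal.ofReal (Wt A a 0 v) :=
      lintegral_mono_set fun c hc x => (hc x).trans (by norm_num)
    refine h1.trans ?_
    have h2 : ∫⁻ v in SB A (3 / 1000), ENNReal.ofReal (Wt A a 0 v) =
        ∫⁻ v in SB A (3 / 1000), ENNReal.ofReal (FG A a 0 v) := by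
      refine setLIntegral_congr_fun (SB_closed A _).measurableSet fun c hc => ?_
      have h3 : Wt A a 0 c = FG A a 0 c := by
        unfold Wt FG
        refine Finset.prod_congr rfl fun x _ => ?_
        have h4 : |ev A c x| ≤ 47 / 100 := (hc x).trans (by norm_num)
        rw [Pi.zero_apply, zero_add, ww_eq_cos h4, Gt_zero, abs_of_nonneg]
        apply Real.cos_nonneg_of_mem_Icc
        have h5 := abs_le.1 h4
        have hp := Real.pi_pos
        constructor
        · nlinarith [h5.1]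
        · nlinarith [h5.2]
      simp only [h3]
    rw [h2]
    refine unfold_ge _ (Ints_meas A a 0) (Ints_per A a 0) _ (SB_closed A _).measurableSet ?_
    intro c hc k hk
    have h3 : (fun j => (k j : ℝ)) = 0 := by
      apply h.inj
      intro x
      have h4 := Ints_ev_add A c k x
      have h5 := hk x
      rw [h4] at h5
      have h6 := abs_le.1 h5
      have h7 := abs_le.1 (hc x)
      rw [ev_int]
      set m : ℤ := ∑ j, A x j * k j with hm
      have h8 : |(m : ℝ)| < 1 := by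
        rw [abs_lt]
        constructor <;> linarith
      have h9 : |m| < 1 := by exact_mod_cast h8
      rw [Int.abs_lt_one_iff.1 h9, Int.cast_zero]
    funext j
    have h4 := congrFun h3 j
    simp only [Pi.zero_apply] at h4
    exact_mod_cast h4
  have hsmall : ∫⁻ c in B2, ENNReal.ofReal (FG A a 0 c) ≤ ENNReal.ofReal (1 / 8) * Hl A a 0 := by
    have h1 := shell_total h.κpos h.κle A a h.δpos h.δle h.cov h.nice h.fin h.half (0 : Q → ℝ)
    have e0 : 1 / 8 * Real.exp (Real.exp 8 * ∑ x, (a x : ℝ) * (0 : Q → ℝ) x ^ 2) = 1 / 8 := by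
      simp
    rw [e0] at h1
    exact h1
  have hfinB : ∀ B : Set (J → ℝ), B ⊆ box J → ∫⁻ c in B, ENNReal.ofReal (FG A a 0 c) ≠ ⊤ := by
    intro B hB
    have h1 : ∫⁻ c in B, ENNReal.ofReal (FG A a 0 c) ≤ ∫⁻ c in box J, 1 := by
      refine (lintegral_mono_set hB).trans (lintegral_mono fun c => ?_)
      rw [← habs, ← ENNReal.ofReal_one]
      exact ENNReal.ofReal_le_ofReal (hle1 c)
    rw [lintegral_one, Measure.restrict_apply_univ, volume_box] at h1
    exact (lt_of_le_of_lt h1 ENNReal.one_lt_top).ne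
  have hB1s : B1 ⊆ box J := fun c hc => hc.1
  have hB2s : B2 ⊆ box J := fun c hc => hc.1
  have e1 : ∫ c in box J, g c = (∫ c in B1, g c) + ∫ c in B2, g c := by
    rw [hun]
    exact setIntegral_union hdisj hmB2 hgi1 hgi2
  have e2 : ∫ c in B1, g c = ∫ c in B1, |g c| :=
    setIntegral_congr_fun hmB1 fun c hc => (abs_of_nonneg (hpos c hc)).symm
  have e3 : -(∫ c in B2, |g c|) ≤ ∫ c in B2, g c := by
    have h1 : ‖∫ c in B2, g c‖ ≤ ∫ c in B2, ‖g c‖ := norm_integral_le_integral_norm _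
    simp only [Real.norm_eq_abs] at h1
    exact (abs_le.1 h1).1
  have e4 : (Hl A a 0).toReal / 2 ≤ ∫ c in B1, |g c| := by
    rw [hlint B1 hmB1 hB1s]
    have h1 := ENNReal.toReal_mono (hfinB B1 hB1s) hmain
    rw [ENNReal.toReal_mul, ENNReal.toReal_ofReal (by norm_num)] at h1
    linarith
  have e5 : ∫ c in B2, |g c| ≤ (Hl A a 0).toReal / 8 := by
    rw [hlint B2 hmB2 hB2s]
    have h2 : ENNReal.ofReal (1 / 8) * Hl A a 0 ≠ ⊤ := ENNReal.mul_ne_top ENNReal.ofReal_ne_top hfin.ne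
    have h1 := ENNReal.toReal_mono h2 hsmall
    rw [ENNReal.toReal_mul, ENNReal.toReal_ofReal (by norm_num)] at h1
    linarith
  have e6 : 0 ≤ (Hl A a 0).toReal := ENNReal.toReal_nonneg
  rw [e1, e2]
  linarith

/-- `Nice` on `Y` implies the quadratic inequality (scale `c → 0`) -/
theorem nice_quad {A : Q → J → ℤ} {Y : Finset Q} {κ : ℝ} (h : Nice A Y κ) (c : J → ℝ) :
    κ * ∑ x, ev A c x ^ 2 ≤ ∑ x ∈ Y, ev A c x ^ 2 := by
  set S : ℝ := ∑ x, |ev A c x| with hS
  have hS0 : 0 ≤ S := Finset.sum_nonneg fun _ _ => abs_nonneg _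
  set t : ℝ := 1 / (4 * (S + 1)) with ht
  have ht0 : 0 < t := by positivity
  have hsm : ∀ x, |ev A (t • c) x| ≤ 1 / 4 := by
    intro x
    rw [ev_smul, abs_mul, abs_of_pos ht0]
    have h1 : |ev A c x| ≤ S :=
      Finset.single_le_sum (f := fun x => |ev A c x|) (fun _ _ => abs_nonneg _) (Finset.mem_univ x)
    rw [ht, div_mul_eq_mul_div, one_mul, div_le_iff₀ (by positivity)]
    linarith
  have hdz : ∀ x, dz (ev A (t • c) x) ^ 2 = t ^ 2 * ev A c x ^ 2 := by
    intro x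
    have h1 := abs_le.1 (hsm x)
    have h2 : round (ev A (t • c) x) = 0 := round_eq_zero_iff.2 ⟨by linarith, by linarith⟩
    unfold dz
    rw [h2, Int.cast_zero, sub_zero, sq_abs, ev_smul, mul_pow]
  have h1 := h (t • c)
  unfold En at h1
  simp only [hdz] at h1
  rw [← Finset.mul_sum, ← Finset.mul_sum] at h1
  have ht2 : 0 < t ^ 2 := by positivity
  have h2 : t ^ 2 * (κ * ∑ x, ev A c x ^ 2) ≤ t ^ 2 * ∑ x ∈ Y, ev A c x ^ 2 := by
    linarith
  exact le_of_mul_le_mul_left h2 ht2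

private theorem Ints_asym {κ : ℝ} (hκ : 0 < κ) : ∃ n0 : ℕ, ∀ n : ℕ, n0 ≤ n →
    Real.exp (-(n : ℝ) / 1000) ≤ cb κ / 20 ∧
    2 * (2 : ℝ) ^ n * Real.exp (-(1 / 1000) ^ 2 / (2 * (Real.exp (-(n : ℝ) / 1000) / κ))) ≤ 1 / 2 := by
  have hcb : 0 < cb κ / 20 := by
    unfold cb
    positivity
  have hlin : Filter.Tendsto (fun n : ℕ => (n : ℝ) / 1000) Filter.atTop Filter.atTop :=
    tendsto_natCast_atTop_atTop.atTop_div_const (by norm_num)
  have h1 : ∀ᶠ n : ℕ in Filter.atTop, Real.exp (-(n : ℝ) / 1000) ≤ cb κ / 20 := by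
    have h2 : Filter.Tendsto (fun n : ℕ => Real.exp (-((n : ℝ) / 1000))) Filter.atTop (nhds 0) :=
      Real.tendsto_exp_neg_atTop_nhds_zero.comp hlin
    filter_upwards [h2.eventually (ge_mem_nhds hcb)] with n hn
    rw [neg_div]
    exact hn
  have h3 : ∀ᶠ n : ℕ in Filter.atTop,
      (8000000000 / κ : ℝ) ≤ Real.exp ((n : ℝ) / 1000) / ((n : ℝ) / 1000) ^ 1 :=
    ((Real.tendsto_exp_div_pow_atTop 1).comp hlin).eventually (Filter.eventually_ge_atTop _)
  obtain ⟨n1, hn1⟩ := Filter.eventually_atTop.1 (h1.and h3)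
  refine ⟨max n1 2, fun n hn => ?_⟩
  have hn2 : 2 ≤ n := (le_max_right _ _).trans hn
  have hn2' : (2 : ℝ) ≤ n := by exact_mod_cast hn2
  obtain ⟨h4, h5⟩ := hn1 n ((le_max_left _ _).trans hn)
  refine ⟨h4, ?_⟩
  rw [pow_one, le_div_iff₀ (by positivity)] at h5
  have hexp : Real.exp (-(n : ℝ) / 1000) * Real.exp ((n : ℝ) / 1000) = 1 := by
    rw [← Real.exp_add, neg_div, neg_add_cancel, Real.exp_zero]
  have hep := Real.exp_pos (-(n : ℝ) / 1000)
  have h6 : -(1 / 1000) ^ 2 / (2 * (Real.exp (-(n : ℝ) / 1000) / κ)) =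
      -(κ * Real.exp ((n : ℝ) / 1000) / 2000000) := by
    have h7 : Real.exp ((n : ℝ) / 1000) = 1 / Real.exp (-(n : ℝ) / 1000) := by
      rw [eq_div_iff hep.ne', mul_comm]
      exact hexp
    rw [h7]
    field_simp
    norm_num
  rw [h6]
  have h8 : 4 * (n : ℝ) ≤ κ * Real.exp ((n : ℝ) / 1000) / 2000000 := by
    have h9 : 8000000000 / κ * ((n : ℝ) / 1000) * κ ≤ Real.exp ((n : ℝ) / 1000) * κ :=
      mul_le_mul_of_nonneg_right h5 hκ.le
    have h10 : 8000000000 / κ * ((n : ℝ) / 1000) * κ = 8000000 * n := by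
      field_simp
      norm_num
    rw [h10] at h9
    linarith
  have h9 : Real.exp (-(κ * Real.exp ((n : ℝ) / 1000) / 2000000)) ≤ Real.exp (-(4 * (n : ℝ))) :=
    Real.exp_le_exp.2 (by linarith)
  have h10 : (2 : ℝ) ^ n ≤ Real.exp n := by
    have h11 : (2 : ℝ) ≤ Real.exp 1 := by
      have := Real.add_one_le_exp (1 : ℝ)
      linarith
    calc (2 : ℝ) ^ n ≤ Real.exp 1 ^ n := pow_le_pow_left₀ (by norm_num) h11 n
      _ = Real.exp n := by rw [← Real.exp_nat_mul, mul_one]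
  calc 2 * (2 : ℝ) ^ n * Real.exp (-(κ * Real.exp ((n : ℝ) / 1000) / 2000000))
      ≤ 2 * Real.exp n * Real.exp (-(4 * (n : ℝ))) := by gcongr
    _ = 2 * Real.exp (-(3 * (n : ℝ))) := by
        rw [mul_assoc, ← Real.exp_add]
        congr 2
        ring
    _ ≤ 2 * Real.exp (-2) := by
        gcongr
        linarith
    _ ≤ 1 / 2 := by
        rw [Real.exp_neg]
        have h12 : (4 : ℝ) ≤ Real.exp 2 := by
          have h13 : Real.exp 2 = Real.exp 1 * Real.exp 1 := by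
            rw [← Real.exp_add]
            norm_num
          have h14 := Real.exp_one_gt_d9
          rw [h13]
          nlinarith
        have h15 : (Real.exp 2)⁻¹ ≤ 4⁻¹ := inv_anti₀ (by norm_num) h12
        linarith

/-- for `n` large the parameters satisfy `LLT`: `δ = e^{-n/1000}` -/
theorem exists_LLT {κ : ℝ} (hκ : 0 < κ) (hκ1 : κ ≤ 1) :
    ∃ n0 : ℕ, ∀ n : ℕ, n0 ≤ n → ∀ (Q J : Type) [Fintype Q] [Fintype J] (A : Q → J → ℤ)
      (a : Q → ℕ), Fintype.card Q = 2 ^ n →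
      Good A (Real.exp (-(n : ℝ) / 1000)) (1 / 1000) →
      (∀ Y : Finset Q, (∀ x, a x ≠ 0 → x ∈ Y) → Nice A Y κ) →
      LLT A a κ (Real.exp (-(n : ℝ) / 1000)) := by
  classical
  obtain ⟨n0, hn0⟩ := Ints_asym hκ
  refine ⟨n0, fun n hn Q J _ _ A a hcard hG hN => ?_⟩
  obtain ⟨h1, h2⟩ := hn0 n hn
  set δ := Real.exp (-(n : ℝ) / 1000) with hδ
  have hδ0 : 0 < δ := Real.exp_pos _
  set Y : Finset Q := Finset.univ.filter fun x => a x ≠ 0 with hY
  have hNY : Nice A Y κ := hN Y fun x hx => by simp [hY, hx]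
  have hsumle : ∀ f : Q → ℝ, (∀ x, 0 ≤ f x) → ∑ x ∈ Y, f x ≤ ∑ x, (a x : ℝ) * f x := by
    intro f hf
    have e1 : ∑ x ∈ Y, f x ≤ ∑ x ∈ Y, (a x : ℝ) * f x := by
      refine Finset.sum_le_sum fun x hx => ?_
      have h3 : a x ≠ 0 := by simpa [hY] using hx
      have h4 : (1 : ℝ) ≤ a x := by exact_mod_cast Nat.one_le_iff_ne_zero.2 h3
      nlinarith [hf x]
    refine e1.trans ?_
    exact Finset.sum_le_sum_of_subset_of_nonneg (Finset.subset_univ _)
      fun x _ _ => mul_nonneg (Nat.cast_nonneg _) (hf x)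
  have hnrm : ∀ v : J → ℝ, κ * ∑ x, ev A v x ^ 2 ≤ nrm2 A a v := fun v =>
    (nice_quad hNY v).trans (hsumle _ fun x => sq_nonneg _)
  have hfin : Hl A a 0 < ⊤ := by
    apply Hl_zero_lt_top
    intro v hv
    apply hG.inj
    have h3 : nrm2 A a v = 0 := by
      unfold nrm2
      refine Finset.sum_eq_zero fun x _ => ?_
      by_cases hx : a x = 0
      · rw [hx]
        simp
      · rw [hv x hx]
        simp
    have h4 := hnrm v
    rw [h3] at h4
    have h5 : ∑ x, ev A v x ^ 2 ≤ 0 := by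
      by_contra hc
      push Not at hc
      have := mul_pos hκ hc
      linarith
    have h6 : ∑ x, ev A v x ^ 2 = 0 := le_antisymm h5 (Finset.sum_nonneg fun _ _ => sq_nonneg _)
    intro x
    have h7 := (Finset.sum_eq_zero_iff_of_nonneg fun x _ => sq_nonneg (ev A v x)).1 h6 x
      (Finset.mem_univ x)
    exact pow_eq_zero_iff (two_ne_zero) |>.1 h7
  refine ⟨hκ, hκ1, hδ0, h1, hG.cov, hG.inj, ?_, hfin, ?_⟩
  · intro c
    exact (hNY c).trans (hsumle (fun x => dz (ev A c x) ^ 2) fun x => sq_nonneg _)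
  · refine mass_SB A a (1 / 1000) (δ / κ) (by norm_num) (by positivity) ?_ hfin ?_
    · intro v x
      have h3 := hG.lev v x
      have h4 := hnrm v
      have h5 : ∑ x, ev A v x ^ 2 ≤ nrm2 A a v / κ := by
        rw [le_div_iff₀ hκ]
        linarith
      calc ev A v x ^ 2 ≤ δ * ∑ y, ev A v y ^ 2 := h3
        _ ≤ δ * (nrm2 A a v / κ) := mul_le_mul_of_nonneg_left h5 hδ0.le
        _ = δ / κ * nrm2 A a v := by ring
    · rw [hcard]
      push_cast
      exact h2

end P047F
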