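import Vale.Agent.Lib.P047F.Interface
import Vale.Agent.Lib.P047F.II.Ints
import Vale.Agent.Lib.P047F.II.Count

/-!
# P047F Part II: final theorems `partII` and `partSG`
-/

open MeasureTheory Finset

namespace P047F

private theorem Main_Hl_pos {Q J : Type} [Fintype Q] [Fintype J] {A : Q → J → ℤ} {a : Q → ℕ}
    {κ δ : ℝ} (h : LLT A a κ δ) : 0 < (Hl A a 0).toReal :=
  ENNReal.toReal_pos (Hl_zero_pos A a).ne' h.fin.ne

/-- `exists_LLT` with `κ = 1`, `lowerInt`, `Hl_zero_pos`, `exist_of_pos` -/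
theorem partII : PartII := by
  obtain ⟨n0, hn0⟩ := exists_LLT (κ := 1) one_pos le_rfl
  refine ⟨n0, fun n hn Q J _ _ A hcard hgood a ha hpar => ?_⟩
  have hL := hn0 n hn Q J A a hcard hgood (fun Y hY => by
    have hY' : Y = Finset.univ := by
      ext x
      simp only [Finset.mem_univ, iff_true]
      apply hY
      rcases ha x with h | h
      · rw [h]; norm_num
      · rw [h]; norm_num
    rw [hY']
    intro c
    rw [one_mul])
  have h1 := lowerInt hL hpar
  have h2 := Main_Hl_pos hL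
  refine exist_of_pos A a (fun x => ?_) hpar (lt_of_lt_of_le (by linarith) h1)
  rcases ha x with h | h
  · rw [h]; norm_num
  · rw [h]

private theorem Main_nice_mono {Q J : Type} [Fintype Q] [Fintype J] {A : Q → J → ℤ}
    {Y Y' : Finset Q} {κ : ℝ} (h : Nice A Y κ) (hs : Y ⊆ Y') : Nice A Y' κ := by
  intro c
  refine (h c).trans ?_
  exact Finset.sum_le_sum_of_subset_of_nonneg hs fun x _ _ => sq_nonneg _

open Classical in
private theorem Main_prod {Q : Type} [Fintype Q] (Y : Finset Q) (f : Q → ℝ) :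
    ∏ x, f x ^ (aY Y x) = ∏ x ∈ Y, f x := by
  rw [← Finset.prod_subset (Finset.subset_univ Y)]
  · refine Finset.prod_congr rfl fun x hx => ?_
    rw [aY, if_pos hx, pow_one]
  · intro x _ hx
    rw [aY, if_neg hx, pow_zero]

open Classical in
private theorem Main_sum {Q : Type} [Fintype Q] (Y : Finset Q) (f : Q → ℝ) :
    ∑ x, (aY Y x : ℝ) * f x = ∑ x ∈ Y, f x := by
  rw [← Finset.sum_subset (Finset.subset_univ Y)]
  · refine Finset.sum_congr rfl fun x hx => ?_
    rw [aY, if_pos hx, Nat.cast_one, one_mul]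
  · intro x _ hx
    rw [aY, if_neg hx, Nat.cast_zero, zero_mul]

open Classical in
private theorem Main_sumZ {Q : Type} [Fintype Q] (Y : Finset Q) (f : Q → ℤ) :
    ∑ x, (aY Y x : ℤ) * f x = ∑ x ∈ Y, f x := by
  rw [← Finset.sum_subset (Finset.subset_univ Y)]
  · refine Finset.sum_congr rfl fun x hx => ?_
    rw [aY, if_pos hx, Nat.cast_one, one_mul]
  · intro x _ hx
    rw [aY, if_neg hx, Nat.cast_zero, zero_mul]

private theorem Main_sinh_le {x : ℝ} (hx : 0 ≤ x) : Real.sinh x ≤ x * Real.cosh x := by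
  have hd : ∀ t : ℝ, HasDerivAt (fun t : ℝ => t * Real.cosh t - Real.sinh t)
      (1 * Real.cosh t + t * Real.sinh t - Real.cosh t) t := fun t =>
    ((hasDerivAt_id t).mul (Real.hasDerivAt_cosh t)).sub (Real.hasDerivAt_sinh t)
  have h : MonotoneOn (fun t : ℝ => t * Real.cosh t - Real.sinh t) (Set.Ici 0) := by
    apply monotoneOn_of_deriv_nonneg (convex_Ici 0)
    · exact fun t _ => (hd t).continuousAt.continuousWithinAt
    · exact fun t _ => (hd t).differentiableAt.differentiableWithinAt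
    · intro t ht
      rw [interior_Ici] at ht
      rw [(hd t).deriv]
      have h2 : 0 ≤ Real.sinh t := Real.sinh_nonneg_iff.2 (le_of_lt ht)
      have h3 : (0 : ℝ) ≤ t := le_of_lt ht
      nlinarith
  have h1 := h (Set.self_mem_Ici) (Set.mem_Ici.2 hx) hx
  simp only [zero_mul, Real.sinh_zero, sub_zero] at h1
  linarith

private theorem Main_tanh_sq_le (x : ℝ) : Real.tanh x ^ 2 ≤ x ^ 2 := by
  have h : ∀ y : ℝ, 0 ≤ y → Real.tanh y ^ 2 ≤ y ^ 2 := by
    intro y hy
    have h1 : 0 ≤ Real.tanh y := by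
      rw [Real.tanh_eq_sinh_div_cosh]
      exact div_nonneg (Real.sinh_nonneg_iff.2 hy) (Real.cosh_pos y).le
    have h2 : Real.tanh y ≤ y := by
      rw [Real.tanh_eq_sinh_div_cosh, div_le_iff₀ (Real.cosh_pos y)]
      exact Main_sinh_le hy
    exact pow_le_pow_left₀ h1 h2 2
  rcases le_total 0 x with hx | hx
  · exact h x hx
  · have := h (-x) (by linarith)
    rwa [Real.tanh_neg, neg_sq, neg_sq] at this

/-- `exists_LLT`, `lowerInt` + `count_eq` (positivity and lower bound of `card`), `upperInt` + `tilt_le`,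
`tanh² h ≤ h²`: ratio `≤ 3 exp((e^8 + 1/2) Σh²) / (1/4)` -/
theorem partSG : PartSG := by
  intro κ hκ hκ1
  obtain ⟨n0, hn0⟩ := exists_LLT hκ hκ1
  refine ⟨n0, fun n hn Q J _ _ A hcard hgood Y hY hpar => ?_⟩
  have hL := hn0 n hn Q J A (aY Y) hcard hgood (fun Y' hY' => by
    refine Main_nice_mono hY fun x hx => hY' x ?_
    rw [aY, if_pos hx]
    exact one_ne_zero)
  have hpar' : ∀ j, Even (∑ x, (aY Y x : ℤ) * A x j) := by
    intro j
    rw [Main_sumZ Y (fun x => A x j)]
    exact hpar j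
  have h1 := lowerInt hL hpar'
  have h2 := Main_Hl_pos hL
  have h3 := count_eq A Y hpar
  have h4 : ∫ c in box J, ∏ x, Real.cos (Real.pi * ev A c x) ^ (aY Y x) =
      ∫ c in box J, ∏ x ∈ Y, Real.cos (Real.pi * ev A c x) := by
    congr 1
    funext c
    exact Main_prod Y _
  rw [h4] at h1
  have hpow : (0 : ℝ) < 2 ^ Y.card := by positivity
  have h5 : 2 ^ Y.card * ((Hl A (aY Y) 0).toReal / 4) ≤ ((Valid A Y).card : ℝ) := by
    rw [h3]
    exact mul_le_mul_of_nonneg_left h1 hpow.le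
  have hcpos : (0 : ℝ) < (Valid A Y).card := lt_of_lt_of_le (by positivity) h5
  refine ⟨by exact_mod_cast hcpos, fun h => ?_⟩
  set S : ℝ := ∑ x ∈ Y, h x ^ 2 with hS
  have hS0 : 0 ≤ S := Finset.sum_nonneg fun x _ => sq_nonneg _
  have h6 := tilt_le A Y hpar h
  have h7 := upperInt hL (fun x => Real.tanh (h x))
  have h8 : ∑ x, (aY Y x : ℝ) * Real.tanh (h x) ^ 2 ≤ S := by
    rw [Main_sum Y (fun x => Real.tanh (h x) ^ 2), hS]
    exact Finset.sum_le_sum fun x _ => Main_tanh_sq_le (h x)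
  have h9 : ENNReal.ofReal (∑ z ∈ Valid A Y, Real.exp (∑ x ∈ Y, (z x : ℝ) * h x)) ≤
      ENNReal.ofReal (2 ^ Y.card * Real.exp (S / 2) * (3 * Real.exp (Real.exp 8 * S)) *
        (Hl A (aY Y) 0).toReal) := by
    refine h6.trans ?_
    refine (mul_le_mul_right h7 _).trans ?_
    have e1 : Hl A (aY Y) 0 = ENNReal.ofReal (Hl A (aY Y) 0).toReal :=
      (ENNReal.ofReal_toReal hL.fin.ne).symm
    rw [e1, ← ENNReal.ofReal_mul (by positivity), ← ENNReal.ofReal_mul (by positivity),
      ENNReal.toReal_ofReal h2.le]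
    apply ENNReal.ofReal_le_ofReal
    rw [← mul_assoc]
    apply mul_le_mul_of_nonneg_right _ h2.le
    apply mul_le_mul_of_nonneg_left _ (by positivity)
    apply mul_le_mul_of_nonneg_left _ (by norm_num)
    apply Real.exp_le_exp.2
    exact mul_le_mul_of_nonneg_left h8 (Real.exp_pos _).le
  have h10 := (ENNReal.ofReal_le_ofReal_iff (by positivity)).1 h9
  refine h10.trans ?_
  have e2 : Real.exp (S / 2) * Real.exp (Real.exp 8 * S) ≤ Real.exp ((Real.exp 8 + 1) * S) := by
    rw [← Real.exp_add]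
    apply Real.exp_le_exp.2
    nlinarith
  calc 2 ^ Y.card * Real.exp (S / 2) * (3 * Real.exp (Real.exp 8 * S)) * (Hl A (aY Y) 0).toReal
      = 12 * (Real.exp (S / 2) * Real.exp (Real.exp 8 * S)) *
        (2 ^ Y.card * ((Hl A (aY Y) 0).toReal / 4)) := by ring
    _ ≤ 12 * Real.exp ((Real.exp 8 + 1) * S) * (Valid A Y).card := by
        apply mul_le_mul _ h5 (by positivity) (by positivity)
        exact mul_le_mul_of_nonneg_left e2 (by norm_num)

end P047F
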