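import Vale.Agent.Lib.P047F.Defs
import Vale.Agent.Lib.P347.PLn

/-!
# P047F II/PL: Prekopa-Leindler on `J → ℝ`
-/

open MeasureTheory
open scoped ENNReal

namespace P047F

private theorem pl_half (a b : ℝ≥0∞) :
    a ^ (1 / 2 : ℝ) * b ^ (1 / 2 : ℝ) = (a * b) ^ (1 / 2 : ℝ) :=
  (ENNReal.mul_rpow_of_nonneg a b (by norm_num)).symm

private theorem pl_sq_half (a : ℝ≥0∞) : (a ^ 2) ^ (1 / 2 : ℝ) = a := by
  rw [← ENNReal.rpow_natCast, ← ENNReal.rpow_mul]
  norm_num

private theorem pl_half_sq (a : ℝ≥0∞) : (a ^ (1 / 2 : ℝ)) ^ 2 = a := by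
  rw [← ENNReal.rpow_natCast, ← ENNReal.rpow_mul]
  norm_num

/-- from `Vale.Agent.P347.pl_pi` by reindexing `J ≃ Fin n` (`MeasurableEquiv.piCongrLeft`,
`volume_measurePreserving_piCongrLeft`), in squared form -/
theorem pl_J {J : Type} [Fintype J] {f g h : (J → ℝ) → ℝ≥0∞} (hf : Measurable f)
    (hg : Measurable g) (hh : Measurable h)
    (H : ∀ x y, f x * g y ≤ h ((1 / 2 : ℝ) • (x + y)) ^ 2) :
    (∫⁻ x, f x) * (∫⁻ x, g x) ≤ (∫⁻ x, h x) ^ 2 := by
  classical
  have e : J ≃ Fin (Fintype.card J) := Fintype.equivFin J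
  have hmp := (volume_measurePreserving_piCongrLeft (fun _ : Fin (Fintype.card J) => ℝ) e).symm
  have hcomp : ∀ F : (J → ℝ) → ℝ≥0∞, Measurable F →
      ∫⁻ y : Fin (Fintype.card J) → ℝ, F (fun j => y (e j)) = ∫⁻ x, F x := by
    intro F hF
    exact hmp.lintegral_comp hF
  have hm : Measurable (fun y : Fin (Fintype.card J) → ℝ => fun j => y (e j)) :=
    measurable_pi_lambda _ fun j => measurable_pi_apply _
  have key := Vale.Agent.P347.pl_pi (Fintype.card J) (hf.comp hm) (hg.comp hm) (hh.comp hm)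
    (fun x y => by
      rw [pl_half]
      have h1 := H (fun j => x (e j)) (fun j => y (e j))
      have h2 : h ((1 / 2 : ℝ) • ((fun j => x (e j)) + (fun j => y (e j)))) =
          (h ∘ fun y : Fin (Fintype.card J) → ℝ => fun j => y (e j))
            ((1 / 2 : ℝ) • x + (1 / 2 : ℝ) • y) := by
        rw [← smul_add]
        rfl
      rw [h2] at h1
      have h3 := ENNReal.rpow_le_rpow h1 (z := (1 / 2 : ℝ)) (by norm_num)
      rw [pl_sq_half] at h3
      exact h3)
  have h4 : ∀ F : (J → ℝ) → ℝ≥0∞, Measurable F →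
      ∫⁻ y : Fin (Fintype.card J) → ℝ,
        (F ∘ fun y : Fin (Fintype.card J) → ℝ => fun j => y (e j)) y = ∫⁻ x, F x := hcomp
  rw [h4 f hf, h4 g hg, h4 h hh, pl_half] at key
  have h5 := pow_le_pow_left' key 2
  rwa [pl_half_sq] at h5

end P047F
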