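import Vale.Agent.Lib.P047F.II.W1

/-!
# P047F II/W2: properties of the majorant used in Part II
-/

open Real

namespace P047F

theorem ww_pos (t : ℝ) : 0 < ww t := Real.exp_pos _

theorem ww_even (t : ℝ) : ww (-t) = ww t := by
  unfold ww
  rw [psi_even]

theorem ww_cont : Continuous ww := by
  have h1 : Continuous psi := continuous_iff_continuousAt.2 fun t => (hasDerivAt_psi t).continuousAt
  exact Real.continuous_exp.comp h1.neg

private theorem W2_gg_zero : gg 0 = 0 := by
  have h := gg_odd 0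
  rw [neg_zero] at h
  linarith

/-- strong convexity -/
private theorem W2_tangent (s t : ℝ) : psi s + gg s * (t - s) + (t - s) ^ 2 / 2 ≤ psi t := by
  have hd : ∀ x, HasDerivAt (fun x => psi x - (gg s * (x - s) + (x - s) ^ 2 / 2))
      (gg x - (gg s + (x - s))) x := by
    intro x
    have h1 : HasDerivAt (fun x : ℝ => gg s * (x - s) + (x - s) ^ 2 / 2) (gg s + (x - s)) x := by
      have h2 : HasDerivAt (fun x : ℝ => x - s) 1 x := (hasDerivAt_id x).sub_const s
      have h3 := (h2.const_mul (gg s)).add ((h2.pow 2).div_const 2)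
      refine h3.congr_deriv ?_
      ring
    exact (hasDerivAt_psi x).sub h1
  rcases lt_trichotomy s t with h | h | h
  · obtain ⟨c, hc, hc2⟩ := exists_hasDerivAt_eq_slope _ _ h
      (continuousOn_of_forall_continuousAt fun x _ => (hd x).continuousAt) (fun x _ => hd x)
    have h1 := gg_incr hc.1.le
    have h2 : 0 ≤ gg c - (gg s + (c - s)) := by linarith
    rw [hc2, le_div_iff₀ (sub_pos.2 h), zero_mul] at h2
    simp only [sub_self, mul_zero, zero_add] at h2
    norm_num at h2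
    linarith
  · rw [h]
    simp
  · obtain ⟨c, hc, hc2⟩ := exists_hasDerivAt_eq_slope _ _ h
      (continuousOn_of_forall_continuousAt fun x _ => (hd x).continuousAt) (fun x _ => hd x)
    have h1 := gg_incr hc.2.le
    have h2 : gg c - (gg s + (c - s)) ≤ 0 := by linarith
    rw [hc2, div_le_iff₀ (sub_pos.2 h), zero_mul] at h2
    simp only [sub_self, mul_zero, zero_add] at h2
    norm_num at h2
    linarith

/-- W2, strong log-concavity at the midpoint: from `gg_incr` (`psi - t²/2` is convex) -/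
theorem ww_mid (s t : ℝ) : ww s * ww t ≤ ww ((s + t) / 2) ^ 2 * Real.exp (-(s - t) ^ 2 / 4) := by
  unfold ww
  rw [← Real.exp_add, ← Real.exp_nat_mul, ← Real.exp_add]
  apply Real.exp_le_exp.2
  have h1 := W2_tangent ((s + t) / 2) s
  have h2 := W2_tangent ((s + t) / 2) t
  push_cast
  nlinarith

/-- W3 -/
theorem ww_eq_cos {t : ℝ} (h : |t| ≤ 47 / 100) : ww t = Real.cos (π * t) := by
  have hpi := Real.pi_pos
  have h1 := abs_le.1 h
  have hc : 0 < Real.cos (π * t) := by
    apply Real.cos_pos_of_mem_Ioo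
    constructor <;> nlinarith
  unfold ww psi
  rw [if_pos h, neg_neg, Real.exp_log hc]

/-- W5: from convexity of `psi` -/
theorem ww_add_le (u v : ℝ) : ww (u + v) ≤ ww v * Real.exp (-(u * gg v)) := by
  unfold ww
  rw [← Real.exp_add]
  apply Real.exp_le_exp.2
  have h1 := W2_tangent v (u + v)
  have h2 : u + v - v = u := by ring
  rw [h2] at h1
  nlinarith [sq_nonneg u]

/-- W6 -/
theorem ww_le_gauss (t : ℝ) : ww t ≤ Real.exp (-t ^ 2 / 2) := by
  unfold ww
  apply Real.exp_le_exp.2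
  have h1 := W2_tangent 0 t
  rw [psi_zero, W2_gg_zero] at h1
  have h2 : t - 0 = t := by ring
  rw [h2] at h1
  linarith

private theorem W2_c_pos : 0 < Real.cos (π * (47 / 100)) := by
  have := cos_t0_ge
  linarith

private theorem W2_log_c : -(5 / 2) ≤ Real.log (Real.cos (π * (47 / 100))) := by
  rw [Real.le_log_iff_exp_le W2_c_pos, Real.exp_neg]
  refine le_trans ?_ cos_t0_ge
  have h1 : (11 : ℝ) ≤ Real.exp (5 / 2) := by
    have h2 : Real.exp (5 / 2) = Real.exp 1 * Real.exp 1 * Real.exp (1 / 2) := by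
      rw [← Real.exp_add, ← Real.exp_add]
      norm_num
    have h3 : (2.7182818283 : ℝ) < Real.exp 1 := Real.exp_one_gt_d9
    have h4 : (1 / 2 : ℝ) + 1 ≤ Real.exp (1 / 2) := Real.add_one_le_exp _
    rw [h2]
    have h5 : (2.7182818283 : ℝ) * 2.7182818283 ≤ Real.exp 1 * Real.exp 1 :=
      mul_le_mul h3.le h3.le (by norm_num) (Real.exp_pos _).le
    have h6 : (2.7182818283 : ℝ) * 2.7182818283 * (1 / 2 + 1) ≤
        Real.exp 1 * Real.exp 1 * Real.exp (1 / 2) :=
      mul_le_mul h5 h4 (by norm_num) (by positivity)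
    norm_num at h6
    linarith
  rw [inv_le_comm₀ (Real.exp_pos _) (by norm_num)]
  refine le_trans ?_ h1
  norm_num

/-- W7: `psi t ≤ 4` for `|t| ≤ 1/2 + 1/200`: `psi` is increasing in `|t|` and
`psi (101/200) = -log cos(47π/100) + π tan(47π/100)·0.035 + 0.035²/2 ≤ 2.37 + 1.17 + 0.001`. -/
theorem psi_le_four {t : ℝ} (h : |t| ≤ 1 / 2 + 1 / 200) : psi t ≤ 4 := by
  have hpi := Real.pi_pos
  have hpi2 := Real.pi_lt_d2
  unfold psi
  split_ifs with h1
  · -- monotonicity of the cosine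
    have h2 : Real.cos (π * (47 / 100)) ≤ Real.cos (π * t) := by
      rw [← Real.cos_abs (π * t), abs_mul, abs_of_pos hpi]
      apply Real.cos_le_cos_of_nonneg_of_le_pi (by positivity)
      · nlinarith
      · exact mul_le_mul_of_nonneg_left h1 hpi.le
    have h3 := Real.log_le_log W2_c_pos h2
    have h4 := W2_log_c
    linarith
  · have h4 := W2_log_c
    rw [not_le] at h1
    have ht : Real.tan (π * (47 / 100)) ≤ 10000 / 941 := by
      rw [Real.tan_eq_sin_div_cos, div_le_iff₀ W2_c_pos]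
      have h5 := Real.sin_le_one (π * (47 / 100))
      have h6 := cos_t0_ge
      linarith
    have ht0 : 0 ≤ Real.tan (π * (47 / 100)) := by
      apply Real.tan_nonneg_of_nonneg_of_le_pi_div_two (by positivity)
      linarith
    have h7 : |t| - 47 / 100 ≤ 35 / 1000 := by linarith
    have h8 : 0 ≤ |t| - 47 / 100 := by linarith
    have h9 : π * Real.tan (π * (47 / 100)) ≤ 3.15 * (10000 / 941) :=
      mul_le_mul hpi2.le ht ht0 (by norm_num)
    have h10 : π * Real.tan (π * (47 / 100)) * (|t| - 47 / 100) ≤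
        3.15 * (10000 / 941) * (35 / 1000) :=
      mul_le_mul h9 h7 h8 (by norm_num)
    have h11 : (|t| - 47 / 100) ^ 2 ≤ (35 / 1000) ^ 2 := pow_le_pow_left₀ h8 h7 2
    norm_num at h10 h11
    linarith

/-- increments of the tangent -/
private theorem W2_tan {x : ℝ} (h1 : 47 / 100 ≤ x) (h2 : x < 1 / 2) :
    x - 47 / 100 ≤ π * Real.tan (π * x) - π * Real.tan (π * (47 / 100)) := by
  have hpi := Real.pi_pos
  have hpi3 := Real.pi_gt_three
  have hy : π * x < π / 2 := by nlinarith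
  have hcx : 0 < Real.cos (π * x) := by
    apply Real.cos_pos_of_mem_Ioo
    constructor <;> nlinarith
  have hc := W2_c_pos
  have h3 : Real.tan (π * x) - Real.tan (π * (47 / 100)) =
      Real.sin (π * x - π * (47 / 100)) / (Real.cos (π * x) * Real.cos (π * (47 / 100))) := by
    rw [Real.tan_eq_sin_div_cos, Real.tan_eq_sin_div_cos, Real.sin_sub,
      div_sub_div _ _ hcx.ne' hc.ne']
  have h4 : 0 ≤ π * x - π * (47 / 100) := by nlinarith
  have h5 : π * x - π * (47 / 100) ≤ π / 2 := by nlinarith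
  have h6 := Real.mul_le_sin h4 h5
  have h7 : Real.sin (π * x - π * (47 / 100)) ≤
      Real.sin (π * x - π * (47 / 100)) / (Real.cos (π * x) * Real.cos (π * (47 / 100))) := by
    rw [le_div_iff₀ (mul_pos hcx hc)]
    have h8 : Real.cos (π * x) * Real.cos (π * (47 / 100)) ≤ 1 :=
      mul_le_one₀ (Real.cos_le_one _) hc.le (Real.cos_le_one _)
    have h9 : 0 ≤ Real.sin (π * x - π * (47 / 100)) := le_trans (by positivity) h6
    nlinarith
  rw [← mul_sub, h3]
  have h10 : 2 / π * (π * x - π * (47 / 100)) = 2 * (x - 47 / 100) := by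
    field_simp
  rw [h10] at h6
  have h11 : 0 ≤ x - 47 / 100 := by linarith
  have h12 := h6.trans h7
  nlinarith

/-- W4: `|cos πt| ≤ ww t` for `|t| ≤ 1/2 + 1/200`.  For `47/100 ≤ |t| < 1/2`: `-log cos(πt) - psi t`
vanishes at `47/100` together with its derivative and has second derivative `π²/cos² - 1 ≥ 0`;
for `1/2 ≤ |t| ≤ 1/2+1/200`: `|cos πt| ≤ π/200 ≤ exp(-4)` and `psi_le_four`. -/
theorem abs_cos_le_ww {t : ℝ} (h : |t| ≤ 1 / 2 + 1 / 200) : |Real.cos (π * t)| ≤ ww t := by
  have hpi := Real.pi_pos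
  -- reduction to `t ≥ 0`
  wlog ht : 0 ≤ t generalizing t with H
  · have h1 := H (t := -t) (by rwa [abs_neg]) (by linarith)
    rw [ww_even, mul_neg, Real.cos_neg] at h1
    exact h1
  rw [abs_of_nonneg ht] at h
  rcases le_or_gt t (47 / 100) with h1 | h1
  · have h2 : |t| ≤ 47 / 100 := by rwa [abs_of_nonneg ht]
    rw [← ww_eq_cos h2, abs_of_pos (ww_pos t)]
  rcases lt_or_ge t (1 / 2) with h2 | h2
  · -- the middle range
    have hcpos : ∀ x, 47 / 100 ≤ x → x < 1 / 2 → 0 < Real.cos (π * x) := by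
      intro x hx1 hx2
      apply Real.cos_pos_of_mem_Ioo
      constructor <;> nlinarith
    have hd : ∀ x, 47 / 100 ≤ x → x < 1 / 2 →
        HasDerivAt (fun x => - Real.log (Real.cos (π * x)) - psi x)
          (π * Real.tan (π * x) - gg x) x := by
      intro x hx1 hx2
      have h3 : HasDerivAt (fun x : ℝ => π * x) π x := by
        simpa using (hasDerivAt_id x).const_mul π
      have h4 := ((Real.hasDerivAt_cos (π * x)).comp x h3).log (hcpos x hx1 hx2).ne'
      have h5 := h4.neg.sub (hasDerivAt_psi x)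
      refine h5.congr_deriv ?_
      rw [Real.tan_eq_sin_div_cos]
      simp only [Function.comp]
      ring
    obtain ⟨c, hc, hc2⟩ := exists_hasDerivAt_eq_slope
      (fun x => - Real.log (Real.cos (π * x)) - psi x) (fun x => π * Real.tan (π * x) - gg x) h1
      (fun x hx => (hd x hx.1 (lt_of_le_of_lt hx.2 h2)).continuousAt.continuousWithinAt)
      (fun x hx => hd x hx.1.le (hx.2.trans h2))
    have h3 : 0 ≤ π * Real.tan (π * c) - gg c := by
      have hc0 : 0 < c := by linarith [hc.1]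
      have h4 : gg c = π * Real.tan (π * (47 / 100)) + (c - 47 / 100) := by
        unfold gg
        rw [if_neg, if_pos hc0]
        rw [abs_of_pos hc0, not_le]
        exact hc.1
      have h5 := W2_tan hc.1.le (hc.2.trans h2)
      rw [h4]
      linarith
    rw [hc2, le_div_iff₀ (sub_pos.2 h1), zero_mul] at h3
    have h6 : psi (47 / 100) = - Real.log (Real.cos (π * (47 / 100))) := by
      unfold psi
      rw [if_pos]
      rw [abs_of_pos (by norm_num)]
    rw [h6] at h3
    have h7 : Real.log (Real.cos (π * t)) ≤ - psi t := by linarith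
    have h8 := hcpos t h1.le h2
    rw [abs_of_pos h8]
    unfold ww
    rw [← Real.exp_log h8]
    exact Real.exp_le_exp.2 h7
  · -- the last range
    have h3 : psi t ≤ 4 := psi_le_four (by rwa [abs_of_nonneg ht])
    have h4 : Real.exp (-4) ≤ ww t := Real.exp_le_exp.2 (by linarith)
    refine le_trans ?_ h4
    have h5 : Real.cos (π * t) = - Real.sin (π * (t - 1 / 2)) := by
      have h6 : π * t = π * (t - 1 / 2) + π / 2 := by ring
      rw [h6, Real.cos_add_pi_div_two]
    have h6 : 0 ≤ π * (t - 1 / 2) := mul_nonneg hpi.le (by linarith)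
    have h7 : π * (t - 1 / 2) ≤ π / 200 := by nlinarith
    have h8 : 0 ≤ Real.sin (π * (t - 1 / 2)) :=
      Real.sin_nonneg_of_nonneg_of_le_pi h6 (by linarith)
    rw [h5, abs_neg, abs_of_nonneg h8]
    refine (Real.sin_le h6).trans (h7.trans ?_)
    rw [Real.exp_neg]
    have h9 : Real.exp 4 ≤ 56 := by
      have h10 : Real.exp 4 = Real.exp 1 ^ 4 := by
        rw [← Real.exp_nat_mul]
        norm_num
      rw [h10]
      have h11 : Real.exp 1 < 2.7182818286 := Real.exp_one_lt_d9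
      calc Real.exp 1 ^ 4 ≤ 2.7182818286 ^ 4 := pow_le_pow_left₀ (Real.exp_pos _).le h11.le 4
        _ ≤ 56 := by norm_num
    have h12 : (56 : ℝ)⁻¹ ≤ (Real.exp 4)⁻¹ := inv_anti₀ (Real.exp_pos _) h9
    refine le_trans ?_ h12
    have h13 := Real.pi_lt_d2
    norm_num
    linarith

/-- the tilted characteristic function -/
noncomputable def Gt (μ t : ℝ) : ℝ :=
  Real.sqrt (Real.cos (π * t) ^ 2 + μ ^ 2 * Real.sin (π * t) ^ 2)

theorem Gt_nonneg (μ t : ℝ) : 0 ≤ Gt μ t := Real.sqrt_nonneg _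

theorem Gt_zero (t : ℝ) : Gt 0 t = |Real.cos (π * t)| := by
  unfold Gt
  rw [zero_pow two_ne_zero, zero_mul, add_zero, Real.sqrt_sq_eq_abs]

theorem Gt_add_int (μ t : ℝ) (k : ℤ) : Gt μ (t + k) = Gt μ t := by
  have h0 : π * (t + k) = π * t + k * π := by ring
  have h3 : ((-1 : ℝ) ^ k) ^ 2 = 1 := by
    rw [← zpow_natCast, ← zpow_mul, mul_comm, zpow_mul]
    norm_num
  have h1 : Real.cos (π * (t + k)) ^ 2 = Real.cos (π * t) ^ 2 := by
    rw [h0, Real.cos_add_int_mul_pi, mul_pow, h3, one_mul]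
  have h2 : Real.sin (π * (t + k)) ^ 2 = Real.sin (π * t) ^ 2 := by
    rw [h0, Real.sin_add_int_mul_pi, mul_pow, h3, one_mul]
  unfold Gt
  rw [h1, h2]

/-- `G ≤ sqrt(ww² + μ²) ≤ ww · exp(μ²/(2 ww²)) ≤ ww · exp(e^8 μ²)`, by W4 and W7 -/
theorem Gt_le {μ t : ℝ} (h : |t| ≤ 1 / 2 + 1 / 200) :
    Gt μ t ≤ ww t * Real.exp (Real.exp 8 * μ ^ 2) := by
  have hw := ww_pos t
  unfold Gt
  rw [Real.sqrt_le_iff]
  refine ⟨by positivity, ?_⟩
  have h1 : Real.cos (π * t) ^ 2 ≤ ww t ^ 2 := by
    rw [← sq_abs]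
    exact pow_le_pow_left₀ (abs_nonneg _) (abs_cos_le_ww h) 2
  have h2 : Real.sin (π * t) ^ 2 ≤ 1 := Real.sin_sq_le_one _
  have h3 : 1 ≤ ww t ^ 2 * Real.exp 8 := by
    unfold ww
    rw [← Real.exp_nat_mul, ← Real.exp_add]
    apply Real.one_le_exp
    have h4 := psi_le_four h
    push_cast
    linarith
  have h4 : 1 + Real.exp 8 * μ ^ 2 ≤ Real.exp (Real.exp 8 * μ ^ 2) := by
    have := Real.add_one_le_exp (Real.exp 8 * μ ^ 2)
    linarith
  have h5 : 1 ≤ Real.exp (Real.exp 8 * μ ^ 2) := Real.one_le_exp (by positivity)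
  have hμ : 0 ≤ μ ^ 2 := sq_nonneg μ
  calc Real.cos (π * t) ^ 2 + μ ^ 2 * Real.sin (π * t) ^ 2
      ≤ ww t ^ 2 + μ ^ 2 * 1 := add_le_add h1 (mul_le_mul_of_nonneg_left h2 hμ)
    _ ≤ ww t ^ 2 + μ ^ 2 * (ww t ^ 2 * Real.exp 8) :=
        add_le_add_right (mul_le_mul_of_nonneg_left h3 hμ) _
    _ = ww t ^ 2 * (1 + Real.exp 8 * μ ^ 2) := by ring
    _ ≤ ww t ^ 2 * Real.exp (Real.exp 8 * μ ^ 2) := mul_le_mul_of_nonneg_left h4 (sq_nonneg _)
    _ ≤ ww t ^ 2 * (Real.exp (Real.exp 8 * μ ^ 2) * Real.exp (Real.exp 8 * μ ^ 2)) := by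
        refine mul_le_mul_of_nonneg_left ?_ (sq_nonneg _)
        exact le_mul_of_one_le_left (Real.exp_pos _).le h5
    _ = (ww t * Real.exp (Real.exp 8 * μ ^ 2)) ^ 2 := by ring

end P047F
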