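import Vale.Agent.Lib.P047F.Defs
import Vale.Agent.Lib.P047F.II.W2
import Vale.Agent.Lib.P047F.II.PL

/-!
# P047F II/Base: the weight `Wt`, its integral `Hl`, the quadratic form `nrm2`
-/

open MeasureTheory Finset
open scoped ENNReal

namespace P047F

variable {Q J : Type} [Fintype Q] [Fintype J]

/-- `∏_x w(u x + ev v x)^{a x}` -/
noncomputable def Wt (A : Q → J → ℤ) (a : Q → ℕ) (u : Q → ℝ) (v : J → ℝ) : ℝ :=
  ∏ x, ww (u x + ev A v x) ^ (a x)

/-- its integral over `J → ℝ` -/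
noncomputable def Hl (A : Q → J → ℤ) (a : Q → ℕ) (u : Q → ℝ) : ℝ≥0∞ :=
  ∫⁻ v : J → ℝ, ENNReal.ofReal (Wt A a u v)

/-- `|v|_a² = Σ a_x (ev v x)²` -/
noncomputable def nrm2 (A : Q → J → ℤ) (a : Q → ℕ) (v : J → ℝ) : ℝ :=
  ∑ x, (a x : ℝ) * ev A v x ^ 2

theorem ev_add (A : Q → J → ℤ) (v v' : J → ℝ) (x : Q) : ev A (v + v') x = ev A v x + ev A v' x := by
  simp only [ev, Pi.add_apply, mul_add, Finset.sum_add_distrib]

theorem ev_sub (A : Q → J → ℤ) (v v' : J → ℝ) (x : Q) : ev A (v - v') x = ev A v x - ev A v' x := by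
  simp only [ev, Pi.sub_apply, mul_sub, Finset.sum_sub_distrib]

theorem ev_smul (A : Q → J → ℤ) (c : ℝ) (v : J → ℝ) (x : Q) : ev A (c • v) x = c * ev A v x := by
  simp only [ev, Pi.smul_apply, smul_eq_mul, Finset.mul_sum]
  exact Finset.sum_congr rfl fun j _ => by ring

/-- on integer vectors `ev` is an integer -/
theorem ev_int (A : Q → J → ℤ) (k : J → ℤ) (x : Q) :
    ev A (fun j => (k j : ℝ)) x = ((∑ j, A x j * k j : ℤ) : ℝ) := by
  simp only [ev]
  push_cast
  rfl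

theorem ev_continuous (A : Q → J → ℤ) (x : Q) : Continuous (fun v : J → ℝ => ev A v x) := by
  unfold ev
  fun_prop

theorem Wt_pos (A : Q → J → ℤ) (a : Q → ℕ) (u : Q → ℝ) (v : J → ℝ) : 0 < Wt A a u v :=
  Finset.prod_pos fun x _ => pow_pos (ww_pos _) _

theorem Wt_continuous (A : Q → J → ℤ) (a : Q → ℕ) (u : Q → ℝ) : Continuous (Wt A a u) := by
  unfold Wt
  refine continuous_finsetProd _ fun x _ => ?_
  exact (ww_cont.comp (continuous_const.add (ev_continuous A x))).pow _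

private theorem Base_ev_neg (A : Q → J → ℤ) (v : J → ℝ) (x : Q) : ev A (-v) x = -ev A v x := by
  simp only [ev, Pi.neg_apply, mul_neg, Finset.sum_neg_distrib]

/-- evenness: `Wt(-u)(-v) = Wt u v` -/
theorem Wt_neg (A : Q → J → ℤ) (a : Q → ℕ) (u : Q → ℝ) (v : J → ℝ) :
    Wt A a (-u) (-v) = Wt A a u v := by
  unfold Wt
  refine Finset.prod_congr rfl fun x _ => ?_
  rw [Base_ev_neg, Pi.neg_apply, ← neg_add, ww_even]

/-- midpoint inequality for the weights, from `ww_mid` -/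
theorem Wt_mid (A : Q → J → ℤ) (a : Q → ℕ) (u u' : Q → ℝ) (v v' : J → ℝ) :
    Wt A a u v * Wt A a u' v' ≤
      Wt A a (fun x => (u x + u' x) / 2) ((1 / 2 : ℝ) • (v + v')) ^ 2 *
      Real.exp (-(∑ x, (a x : ℝ) * (u x + ev A v x - (u' x + ev A v' x)) ^ 2) / 4) := by
  unfold Wt
  have e1 : Real.exp (-(∑ x, (a x : ℝ) * (u x + ev A v x - (u' x + ev A v' x)) ^ 2) / 4) =
      ∏ x, Real.exp (-(u x + ev A v x - (u' x + ev A v' x)) ^ 2 / 4) ^ (a x) := by
    rw [← Finset.sum_neg_distrib, Finset.sum_div, Real.exp_sum]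
    refine Finset.prod_congr rfl fun x _ => ?_
    rw [← Real.exp_nat_mul]
    congr 1
    ring
  rw [e1, ← Finset.prod_mul_distrib, ← Finset.prod_pow, ← Finset.prod_mul_distrib]
  refine Finset.prod_le_prod (fun x _ => mul_nonneg (pow_nonneg (ww_pos _).le _)
    (pow_nonneg (ww_pos _).le _)) fun x _ => ?_
  have h := ww_mid (u x + ev A v x) (u' x + ev A v' x)
  have e2 : (u x + ev A v x + (u' x + ev A v' x)) / 2 =
      (u x + u' x) / 2 + ev A ((1 / 2 : ℝ) • (v + v')) x := by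
    rw [ev_smul, ev_add]
    ring
  rw [e2] at h
  have h3 := pow_le_pow_left₀ (mul_nonneg (ww_pos _).le (ww_pos _).le) h (a x)
  rw [mul_pow, mul_pow] at h3
  calc _ ≤ _ := h3
    _ = _ := by rw [← pow_mul, ← pow_mul, mul_comm 2 (a x)]

/-- the integral at `0` is positive -/
theorem Hl_zero_pos (A : Q → J → ℤ) (a : Q → ℕ) : 0 < Hl A a 0 := by
  unfold Hl
  have hm : Measurable fun v : J → ℝ => ENNReal.ofReal (Wt A a 0 v) :=
    (Wt_continuous A a 0).measurable.ennreal_ofReal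
  rw [lintegral_pos_iff_support hm]
  have h1 : Function.support (fun v : J → ℝ => ENNReal.ofReal (Wt A a 0 v)) = Set.univ := by
    ext v
    simp only [Function.mem_support, Set.mem_univ, iff_true]
    exact (ENNReal.ofReal_pos.2 (Wt_pos A a 0 v)).ne'
  rw [h1]
  exact Measure.measure_univ_pos.2 (NeZero.ne _)

private theorem Base_nrm2_nonneg (A : Q → J → ℤ) (a : Q → ℕ) (v : J → ℝ) : 0 ≤ nrm2 A a v :=
  Finset.sum_nonneg fun x _ => by positivity

private theorem Base_coer (A : Q → J → ℤ) (a : Q → ℕ)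
    (hinj : ∀ v : J → ℝ, (∀ x, a x ≠ 0 → ev A v x = 0) → v = 0) :
    ∃ c : ℝ, 0 < c ∧ ∀ v : J → ℝ, c * ∑ j, v j ^ 2 ≤ nrm2 A a v := by
  have hcs : Continuous fun v : J → ℝ => ∑ j, v j ^ 2 := by fun_prop
  have hcn : Continuous (nrm2 A a) := by
    unfold nrm2
    refine continuous_finsetSum _ fun x _ => ?_
    exact continuous_const.mul ((ev_continuous A x).pow 2)
  have hpos : ∀ v : J → ℝ, v ≠ 0 → 0 < nrm2 A a v := by
    intro v hv
    rcases (Base_nrm2_nonneg A a v).lt_or_eq with h | h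
    · exact h
    · exfalso
      apply hv
      apply hinj
      intro x hx
      have h1 := (Finset.sum_eq_zero_iff_of_nonneg (fun x _ => by positivity)).1 h.symm x
        (Finset.mem_univ x)
      have h2 : (a x : ℝ) ≠ 0 := by exact_mod_cast hx
      have h3 := (mul_eq_zero.1 h1).resolve_left h2
      exact pow_eq_zero_iff (two_ne_zero) |>.1 h3
  have hclosed : IsClosed {v : J → ℝ | ∑ j, v j ^ 2 = 1} := isClosed_eq hcs continuous_const
  have hsub : {v : J → ℝ | ∑ j, v j ^ 2 = 1} ⊆ Metric.closedBall 0 1 := by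
    intro v hv
    rw [mem_closedBall_zero_iff, pi_norm_le_iff_of_nonneg zero_le_one]
    intro j
    have h1 : v j ^ 2 ≤ ∑ j, v j ^ 2 :=
      Finset.single_le_sum (f := fun j => v j ^ 2) (fun j _ => sq_nonneg _) (Finset.mem_univ j)
    have h2 : ∑ j, v j ^ 2 = 1 := hv
    rw [h2] at h1
    rw [Real.norm_eq_abs]
    exact (sq_le_one_iff_abs_le_one _).1 h1
  have hcomp : IsCompact {v : J → ℝ | ∑ j, v j ^ 2 = 1} :=
    (isCompact_closedBall 0 1).of_isClosed_subset hclosed hsub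
  obtain ⟨c, hc, hcb⟩ := hcomp.exists_forall_le' hcn.continuousOn (a := 0) (by
    intro v hv
    apply hpos
    rintro rfl
    have h2 : ∑ j : J, ((0 : J → ℝ) j) ^ 2 = 1 := hv
    simp at h2)
  refine ⟨c, hc, fun v => ?_⟩
  have hs0 : 0 ≤ ∑ j, v j ^ 2 := Finset.sum_nonneg fun j _ => sq_nonneg _
  rcases hs0.lt_or_eq with hs | hs
  · set s := ∑ j, v j ^ 2 with hsdef
    have hr : 0 < √s := Real.sqrt_pos.2 hs
    have hr2 : √s ^ 2 = s := Real.sq_sqrt hs0
    have hw : ∑ j, ((√s)⁻¹ • v) j ^ 2 = 1 := by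
      simp only [Pi.smul_apply, smul_eq_mul, mul_pow]
      rw [← Finset.mul_sum, ← hsdef, inv_pow, hr2]
      exact inv_mul_cancel₀ hs.ne'
    have h1 := hcb _ hw
    have h2 : nrm2 A a ((√s)⁻¹ • v) = s⁻¹ * nrm2 A a v := by
      unfold nrm2
      rw [Finset.mul_sum]
      refine Finset.sum_congr rfl fun x _ => ?_
      rw [ev_smul, mul_pow, inv_pow, hr2]
      ring
    rw [h2] at h1
    have h3 := mul_le_mul_of_nonneg_right h1 hs0
    calc c * s ≤ s⁻¹ * nrm2 A a v * s := h3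
      _ = nrm2 A a v := by field_simp
  · rw [← hs, mul_zero]
    exact Base_nrm2_nonneg A a v

/-- if `a` separates vectors then the integral is finite: `nrm2 v ≥ c Σ v_j²` for some `c > 0`
(compactness of the unit sphere), and `Wt ≤ exp(-nrm2/2)` by `ww_le_gauss`. -/
theorem Hl_zero_lt_top (A : Q → J → ℤ) (a : Q → ℕ)
    (hinj : ∀ v : J → ℝ, (∀ x, a x ≠ 0 → ev A v x = 0) → v = 0) : Hl A a 0 < ⊤ := by
  obtain ⟨c, hc, hcv⟩ := Base_coer A a hinj
  have h1 : ∀ v : J → ℝ, Wt A a 0 v ≤ ∏ j, Real.exp (-(c / 2) * v j ^ 2) := by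
    intro v
    have h2 : Wt A a 0 v ≤ ∏ x, Real.exp (-(ev A v x) ^ 2 / 2) ^ (a x) := by
      unfold Wt
      refine Finset.prod_le_prod (fun x _ => pow_nonneg (ww_pos _).le _) fun x _ => ?_
      apply pow_le_pow_left₀ (ww_pos _).le
      rw [Pi.zero_apply, zero_add]
      exact ww_le_gauss _
    have h3 : ∏ x, Real.exp (-(ev A v x) ^ 2 / 2) ^ (a x) = Real.exp (-(nrm2 A a v) / 2) := by
      unfold nrm2
      rw [← Finset.sum_neg_distrib, Finset.sum_div, Real.exp_sum]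
      refine Finset.prod_congr rfl fun x _ => ?_
      rw [← Real.exp_nat_mul]
      congr 1
      ring
    have h4 : ∏ j, Real.exp (-(c / 2) * v j ^ 2) = Real.exp (-(c * ∑ j, v j ^ 2) / 2) := by
      rw [← Real.exp_sum, ← Finset.mul_sum]
      congr 1
      ring
    rw [h4]
    refine h2.trans ?_
    rw [h3]
    apply Real.exp_le_exp.2
    have := hcv v
    linarith
  have hint : Integrable (fun v : J → ℝ => ∏ j, Real.exp (-(c / 2) * v j ^ 2)) volume :=
    Integrable.fintype_prod fun _ => integrable_exp_neg_mul_sq (by positivity)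
  unfold Hl
  refine lt_of_le_of_lt (lintegral_mono fun v => ENNReal.ofReal_le_ofReal (h1 v)) ?_
  exact hint.lintegral_lt_top

end P047F
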