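import Vale.Agent.Lib.P047F.II.Conc2

/-!
# P047F II/Cluster: the bound for one cluster
-/

open MeasureTheory Finset
open scoped ENNReal

namespace P047F

variable {Q J : Type} [Fintype Q] [Fintype J]

/-- the integrand with tilts `μ` -/
noncomputable def FG (A : Q → J → ℤ) (a : Q → ℕ) (μ : Q → ℝ) (c : J → ℝ) : ℝ :=
  ∏ x, Gt (μ x) (ev A c x) ^ (a x)

theorem FG_nonneg (A : Q → J → ℤ) (a : Q → ℕ) (μ : Q → ℝ) (c : J → ℝ) : 0 ≤ FG A a μ c :=
  Finset.prod_nonneg fun _ _ => pow_nonneg (Gt_nonneg _ _) _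

private theorem Cluster_Gt_cont (μ : ℝ) : Continuous (Gt μ) := by
  unfold Gt
  fun_prop

theorem FG_continuous (A : Q → J → ℤ) (a : Q → ℕ) (μ : Q → ℝ) : Continuous (FG A a μ) := by
  unfold FG
  refine continuous_finsetProd _ fun x _ => ?_
  exact ((Cluster_Gt_cont (μ x)).comp (ev_continuous A x)).pow _

theorem FG_periodic (A : Q → J → ℤ) (a : Q → ℕ) (μ : Q → ℝ) (c : J → ℝ) (k : J → ℤ) :
    FG A a μ (fun j => c j + k j) = FG A a μ c := by
  unfold FG
  refine Finset.prod_congr rfl fun x _ => ?_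
  have h1 : (fun j => c j + (k j : ℝ)) = c + (fun j => (k j : ℝ)) := rfl
  rw [h1, ev_add, ev_int, Gt_add_int]

/-- pointwise majorant near a centre `c0`: with `u x = ev c0 x - round (ev c0 x)` and
`|ev (c - c0) x| ≤ 1/200`: `FG c ≤ exp(e^8 Σ a μ²) · Wt u (c - c0)` (`Gt_add_int`, `Gt_le`). -/
theorem FG_le_Wt (A : Q → J → ℤ) (a : Q → ℕ) (μ : Q → ℝ) (c0 c : J → ℝ)
    (hc : ∀ x, |ev A (c - c0) x| ≤ 1 / 200) :
    FG A a μ c ≤ Real.exp (Real.exp 8 * ∑ x, (a x : ℝ) * μ x ^ 2) *
      Wt A a (fun x => ev A c0 x - round (ev A c0 x)) (c - c0) := by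
  unfold FG Wt
  rw [Finset.mul_sum, Real.exp_sum, ← Finset.prod_mul_distrib]
  refine Finset.prod_le_prod (fun x _ => pow_nonneg (Gt_nonneg _ _) _) fun x _ => ?_
  have h1 : ev A c x = (ev A c0 x - round (ev A c0 x) + ev A (c - c0) x) +
      ((round (ev A c0 x) : ℤ) : ℝ) := by
    rw [ev_sub]
    ring
  have h2 : |ev A c0 x - round (ev A c0 x) + ev A (c - c0) x| ≤ 1 / 2 + 1 / 200 :=
    (abs_add_le _ _).trans (add_le_add (abs_sub_round _) (hc x))
  have h3 : Gt (μ x) (ev A c x) = Gt (μ x) (ev A c0 x - round (ev A c0 x) + ev A (c - c0) x) := by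
    rw [h1, Gt_add_int]
  rw [h3]
  have h4 := pow_le_pow_left₀ (Gt_nonneg _ _) (Gt_le (μ := μ x) h2) (a x)
  refine h4.trans (le_of_eq ?_)
  rw [mul_pow, ← Real.exp_nat_mul, mul_comm]
  congr 2
  ring

/-- the cluster constant -/
noncomputable def cb (κ : ℝ) : ℝ := κ / 10 ^ 9

/-- Cluster bound (II.C of PROOF.md), `c'' = κ/10^8`: Case (i) `Σ a (u + ev v)² ≥ c'' M ∀ v`: `Hl_le_of_dist`.
Case (ii): some `v0` with `Σ a u'² < c'' M`, `u' = u + ev v0`; translate the integral by `v0`;
for `v'` in the translated set and `b ∈ SB (1/1000)`: `κ M < nrm2-type quantity`, so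
`dist2 v' ≥ κ M/4`; `tail_dist2`, `shift_le`: `≤ sqrt(2 e^{-κM/16}) e^{1440000 c'' M}`. -/
theorem cluster_bound {κ : ℝ} (hκ : 0 < κ) (hκ1 : κ ≤ 1) (A : Q → J → ℤ) (a : Q → ℕ)
    (hnice : ∀ c : J → ℝ, κ * En A Finset.univ c ≤ ∑ x, (a x : ℝ) * dz (ev A c x) ^ 2)
    (hfin : Hl A a 0 < ⊤)
    (hhalf : ENNReal.ofReal (1 / 2) * Hl A a 0 ≤
      ∫⁻ v in SB A (1 / 1000), ENNReal.ofReal (Wt A a 0 v))
    (μ : Q → ℝ) (c0 : J → ℝ) (M : ℝ) (hM : 0 ≤ M) (X : Set (J → ℝ))
    (hX : ∀ c ∈ X, (∀ x, |ev A (c - c0) x| ≤ 1 / 200) ∧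
      ∀ b ∈ SB A (1 / 1000), M < En A Finset.univ (c - b)) :
    ∫⁻ c in X, ENNReal.ofReal (FG A a μ c) ≤
      ENNReal.ofReal (2 * Real.exp (Real.exp 8 * ∑ x, (a x : ℝ) * μ x ^ 2) *
        Real.exp (-(cb κ * M))) * Hl A a 0 := by
  set K : ℝ := Real.exp (Real.exp 8 * ∑ x, (a x : ℝ) * μ x ^ 2) with hK
  have hK0 : 0 < K := Real.exp_pos _
  set u : Q → ℝ := fun x => ev A c0 x - round (ev A c0 x) with hu
  have hκM : 0 ≤ κ * M := mul_nonneg hκ.le hM
  have hmW : ∀ (u : Q → ℝ) (w : J → ℝ), Measurable fun c : J → ℝ =>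
      ENNReal.ofReal (Wt A a u (c - w)) := fun u w =>
    ((Wt_continuous A a u).comp (continuous_id.sub continuous_const)).measurable.ennreal_ofReal
  -- the pointwise bound
  have h1 : ∫⁻ c in X, ENNReal.ofReal (FG A a μ c) ≤
      ENNReal.ofReal K * ∫⁻ c in X, ENNReal.ofReal (Wt A a u (c - c0)) := by
    rw [← lintegral_const_mul _ (hmW u c0)]
    refine setLIntegral_mono ((hmW u c0).const_mul _) fun c hc => ?_
    rw [← ENNReal.ofReal_mul hK0.le]
    exact ENNReal.ofReal_le_ofReal (FG_le_Wt A a μ c0 c (hX c hc).1)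
  -- it is enough to bound the integral of the weight
  suffices h2 : ∫⁻ c in X, ENNReal.ofReal (Wt A a u (c - c0)) ≤
      ENNReal.ofReal (2 * Real.exp (-(cb κ * M))) * Hl A a 0 by
    refine h1.trans ?_
    calc ENNReal.ofReal K * ∫⁻ c in X, ENNReal.ofReal (Wt A a u (c - c0))
        ≤ ENNReal.ofReal K * (ENNReal.ofReal (2 * Real.exp (-(cb κ * M))) * Hl A a 0) := by
          gcongr
      _ = _ := by
          rw [← mul_assoc, ← ENNReal.ofReal_mul hK0.le]
          congr 2
          ring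
  by_cases hcase : ∀ v : J → ℝ, κ / 10 ^ 8 * M ≤ ∑ x, (a x : ℝ) * (u x + ev A v x) ^ 2
  · -- Case (i)
    have h3 := Hl_le_of_dist A a u (κ / 10 ^ 8 * M) hcase
    have h4 : ∫⁻ c in X, ENNReal.ofReal (Wt A a u (c - c0)) ≤ Hl A a u := by
      refine (setLIntegral_le_lintegral _ _).trans (le_of_eq ?_)
      exact lintegral_sub_right_eq_self (fun v : J → ℝ => ENNReal.ofReal (Wt A a u v)) c0
    refine (h4.trans h3).trans ?_
    gcongr ?_ * _
    apply ENNReal.ofReal_le_ofReal
    have h5 : Real.exp (-(κ / 10 ^ 8 * M) / 2) ≤ Real.exp (-(cb κ * M)) := by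
      apply Real.exp_le_exp.2
      unfold cb
      linarith
    have h6 := Real.exp_pos (-(cb κ * M))
    linarith
  · -- Case (ii)
    push Not at hcase
    obtain ⟨v0, hv0⟩ := hcase
    set u' : Q → ℝ := fun x => u x + ev A v0 x with hu'
    have hSm : MeasurableSet (SB A (1 / 1000)) := (SB_closed A _).measurableSet
    have hSne : (SB A (1 / 1000)).Nonempty := by
      refine ⟨0, fun x => ?_⟩
      have : ev A (0 : J → ℝ) x = 0 := by simp [ev]
      rw [this]
      norm_num
    set B : Set (J → ℝ) := {v | κ * M / 4 ≤ dist2 A a (SB A (1 / 1000)) v} with hB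
    have hBm : MeasurableSet B :=
      measurableSet_le measurable_const (dist2_measurable A a _ hSne)
    -- the translated set is far from the sup ball
    have h3 : ∀ c ∈ X, c - (c0 + v0) ∈ B := by
      intro c hc
      refine le_dist2 A a _ hSne _ _ fun b hb => ?_
      have h4 := (hX c hc).2 b hb
      have h5 := hnice (c - b)
      have h6 : κ * M < ∑ x, (a x : ℝ) * dz (ev A (c - b) x) ^ 2 :=
        lt_of_lt_of_le (mul_lt_mul_of_pos_left h4 hκ) h5
      have h7 : ∑ x, (a x : ℝ) * dz (ev A (c - b) x) ^ 2 ≤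
          2 * ∑ x, (a x : ℝ) * u' x ^ 2 + 2 * nrm2 A a (c - (c0 + v0) - b) := by
        unfold nrm2
        rw [Finset.mul_sum, Finset.mul_sum, ← Finset.sum_add_distrib]
        refine Finset.sum_le_sum fun x _ => ?_
        have h8 : dz (ev A (c - b) x) ≤ |u' x + ev A (c - (c0 + v0) - b) x| := by
          have h9 : u' x + ev A (c - (c0 + v0) - b) x =
              ev A (c - b) x - ((round (ev A c0 x) : ℤ) : ℝ) := by
            simp only [hu', hu, ev_sub, ev_add]
            ring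
          rw [h9]
          exact round_le (ev A (c - b) x) (round (ev A c0 x))
        have h10 : dz (ev A (c - b) x) ^ 2 ≤ (u' x + ev A (c - (c0 + v0) - b) x) ^ 2 := by
          rw [← sq_abs (u' x + ev A (c - (c0 + v0) - b) x)]
          exact pow_le_pow_left₀ (abs_nonneg _) h8 2
        have h11 : (u' x + ev A (c - (c0 + v0) - b) x) ^ 2 ≤
            2 * u' x ^ 2 + 2 * ev A (c - (c0 + v0) - b) x ^ 2 := by
          nlinarith [sq_nonneg (u' x - ev A (c - (c0 + v0) - b) x)]
        calc (a x : ℝ) * dz (ev A (c - b) x) ^ 2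
            ≤ (a x : ℝ) * (2 * u' x ^ 2 + 2 * ev A (c - (c0 + v0) - b) x ^ 2) :=
              mul_le_mul_of_nonneg_left (h10.trans h11) (Nat.cast_nonneg _)
          _ = _ := by ring
      linarith
    -- translation
    have h4 : ∫⁻ c in X, ENNReal.ofReal (Wt A a u (c - c0)) ≤
        ∫⁻ v in B, ENNReal.ofReal (Wt A a u' v) := by
      have e1 : ∀ c, Wt A a u (c - c0) = Wt A a u' (c - (c0 + v0)) := by
        intro c
        unfold Wt
        refine Finset.prod_congr rfl fun x _ => ?_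
        simp only [hu', ev_sub, ev_add]
        congr 2
        ring
      simp only [e1]
      calc ∫⁻ c in X, ENNReal.ofReal (Wt A a u' (c - (c0 + v0)))
          ≤ ∫⁻ c in X, B.indicator (fun v => ENNReal.ofReal (Wt A a u' v)) (c - (c0 + v0)) := by
            refine setLIntegral_mono ?_ fun c hc => ?_
            · exact ((Wt_continuous A a u').measurable.ennreal_ofReal.indicator hBm).comp
                (measurable_id.sub_const _)
            · rw [Set.indicator_of_mem (h3 c hc)]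
        _ ≤ ∫⁻ c, B.indicator (fun v => ENNReal.ofReal (Wt A a u' v)) (c - (c0 + v0)) :=
            setLIntegral_le_lintegral _ _
        _ = ∫⁻ v, B.indicator (fun v => ENNReal.ofReal (Wt A a u' v)) v :=
            lintegral_sub_right_eq_self (fun v : J → ℝ =>
              B.indicator (fun v => ENNReal.ofReal (Wt A a u' v)) v) (c0 + v0)
        _ = _ := lintegral_indicator hBm _
    refine h4.trans ?_
    have h5 := shift_le A a u' B hBm
    have h6 := tail_dist2 A a (SB A (1 / 1000)) hSm hSne hfin hhalf (κ * M / 4)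
    -- compare the squares
    by_contra hcon
    have hcon' := not_le.1 hcon
    have h7 := ENNReal.pow_lt_pow_left (n := 2) two_ne_zero hcon'
    refine absurd h7 (not_lt.2 ?_)
    refine h5.trans ?_
    calc ENNReal.ofReal (Real.exp (2880000 * ∑ x, (a x : ℝ) * u' x ^ 2)) *
          (∫⁻ v in B, ENNReal.ofReal (Wt A a 0 v)) * Hl A a 0
        ≤ ENNReal.ofReal (Real.exp (2880000 * ∑ x, (a x : ℝ) * u' x ^ 2)) *
          (ENNReal.ofReal (2 * Real.exp (-(κ * M / 4) / 4)) * Hl A a 0) * Hl A a 0 := by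
          gcongr
      _ = ENNReal.ofReal (Real.exp (2880000 * ∑ x, (a x : ℝ) * u' x ^ 2) *
          (2 * Real.exp (-(κ * M / 4) / 4))) * Hl A a 0 ^ 2 := by
          rw [ENNReal.ofReal_mul (Real.exp_pos _).le]
          ring
      _ ≤ ENNReal.ofReal ((2 * Real.exp (-(cb κ * M))) ^ 2) * Hl A a 0 ^ 2 := by
          gcongr ?_ * _
          apply ENNReal.ofReal_le_ofReal
          have e2 : Real.exp (2880000 * ∑ x, (a x : ℝ) * u' x ^ 2) *
              (2 * Real.exp (-(κ * M / 4) / 4)) =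
              2 * Real.exp (2880000 * ∑ x, (a x : ℝ) * u' x ^ 2 + (-(κ * M / 4) / 4)) := by
            rw [Real.exp_add]
            ring
          have e3 : (2 * Real.exp (-(cb κ * M))) ^ 2 = 4 * Real.exp (2 * (-(cb κ * M))) := by
            rw [mul_pow, ← Real.exp_nat_mul]
            norm_num
          rw [e2, e3]
          have e4 : Real.exp (2880000 * ∑ x, (a x : ℝ) * u' x ^ 2 + (-(κ * M / 4) / 4)) ≤
              Real.exp (2 * (-(cb κ * M))) := by
            apply Real.exp_le_exp.2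
            unfold cb
            linarith
          have e5 := Real.exp_pos (2 * (-(cb κ * M)))
          linarith
      _ = _ := by
          rw [ENNReal.ofReal_pow (by positivity), mul_pow]

end P047F
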