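import Vale.Agent.Lib.P047F.II.Base

/-!
# P047F II/Conc: consequences P1, P2, P3 of Prekopa-Leindler for the weight `Wt`
-/

open MeasureTheory Finset
open scoped ENNReal

namespace P047F

variable {Q J : Type} [Fintype Q] [Fintype J]

theorem nrm2_nonneg (A : Q → J → ℤ) (a : Q → ℕ) (v : J → ℝ) : 0 ≤ nrm2 A a v :=
  Finset.sum_nonneg fun _ _ => mul_nonneg (Nat.cast_nonneg _) (sq_nonneg _)

private theorem Conc_sq_le {a b : ℝ≥0∞} (h : a ^ 2 ≤ b ^ 2) : a ≤ b := by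
  by_contra hc
  exact absurd h (not_le.2 (ENNReal.pow_lt_pow_left two_ne_zero (not_le.1 hc)))

private theorem Conc_meas (A : Q → J → ℤ) (a : Q → ℕ) (u : Q → ℝ) :
    Measurable fun v : J → ℝ => ENNReal.ofReal (Wt A a u v) :=
  (Wt_continuous A a u).measurable.ennreal_ofReal

private theorem Conc_neg (F : (J → ℝ) → ℝ≥0∞) : ∫⁻ v, F (-v) = ∫⁻ v, F v :=
  lintegral_neg_eq_self F

private theorem Conc_mid0 (A : Q → J → ℤ) (a : Q → ℕ) (v v' : J → ℝ) :
    Wt A a 0 v * Wt A a 0 v' ≤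
      Wt A a 0 ((1 / 2 : ℝ) • (v + v')) ^ 2 * Real.exp (-(nrm2 A a (v - v')) / 4) := by
  have h := Wt_mid A a 0 0 v v'
  have e1 : (fun x : Q => ((0 : Q → ℝ) x + (0 : Q → ℝ) x) / 2) = 0 := by
    funext x
    simp
  have e2 : ∑ x, (a x : ℝ) * ((0 : Q → ℝ) x + ev A v x - ((0 : Q → ℝ) x + ev A v' x)) ^ 2 =
      nrm2 A a (v - v') := by
    unfold nrm2
    refine Finset.sum_congr rfl fun x _ => ?_
    rw [ev_sub, Pi.zero_apply, zero_add, zero_add]
  rwa [e1, e2] at h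

/-- P1.  `pl_J` with `f = ofReal (Wt u)`, `g = ofReal (Wt (-u))`, `h = ofReal (e^{-R2/2} Wt 0)`:
`Wt_mid` with `u, -u` gives the exponent `-(Σ a (2u + ev(v-v'))²)/4 ≤ -R2` (apply the hypothesis to
`(v-v')/2`); `∫ Wt(-u) = ∫ Wt u` by `Wt_neg` and `v ↦ -v`. -/
theorem Hl_le_of_dist (A : Q → J → ℤ) (a : Q → ℕ) (u : Q → ℝ) (R2 : ℝ)
    (h : ∀ v : J → ℝ, R2 ≤ ∑ x, (a x : ℝ) * (u x + ev A v x) ^ 2) :
    Hl A a u ≤ ENNReal.ofReal (Real.exp (-R2 / 2)) * Hl A a 0 := by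
  have hE : 0 ≤ Real.exp (-R2 / 2) := (Real.exp_pos _).le
  have key := pl_J (Conc_meas A a u) (Conc_meas A a (-u))
    (h := fun v => ENNReal.ofReal (Real.exp (-R2 / 2)) * ENNReal.ofReal (Wt A a 0 v))
    ((Conc_meas A a 0).const_mul _) (fun v v' => by
      have h1 := Wt_mid A a u (-u) v v'
      have e1 : (fun x : Q => (u x + (-u) x) / 2) = 0 := by
        funext x
        simp
      have e2 : ∑ x, (a x : ℝ) * (u x + ev A v x - ((-u) x + ev A v' x)) ^ 2 =
          4 * ∑ x, (a x : ℝ) * (u x + ev A ((1 / 2 : ℝ) • (v - v')) x) ^ 2 := by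
        rw [Finset.mul_sum]
        refine Finset.sum_congr rfl fun x _ => ?_
        rw [ev_smul, ev_sub, Pi.neg_apply]
        ring
      rw [e1, e2] at h1
      have h2 := h ((1 / 2 : ℝ) • (v - v'))
      rw [← ENNReal.ofReal_mul (Wt_pos A a u v).le, ← ENNReal.ofReal_mul hE,
        ← ENNReal.ofReal_pow (mul_nonneg hE (Wt_pos A a 0 _).le)]
      apply ENNReal.ofReal_le_ofReal
      refine h1.trans ?_
      rw [mul_pow, mul_comm, ← Real.exp_nat_mul]
      apply mul_le_mul_of_nonneg_right _ (sq_nonneg _)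
      apply Real.exp_le_exp.2
      push_cast
      linarith)
  have e3 : ∫⁻ v, ENNReal.ofReal (Wt A a (-u) v) = Hl A a u := by
    rw [← Conc_neg]
    unfold Hl
    simp only [Wt_neg]
  rw [e3, lintegral_const_mul _ (Conc_meas A a 0)] at key
  apply Conc_sq_le
  rw [sq (Hl A a u)]
  exact key

/-- P2 (Maurey).  `f = ofReal(Wt 0 · e^{d²/4})`, `g = indicator S (Wt 0)`, `h = Wt 0`. -/
theorem maurey (A : Q → J → ℤ) (a : Q → ℕ) (d2 : (J → ℝ) → ℝ) (hd : Measurable d2)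
    (S : Set (J → ℝ)) (hS : MeasurableSet S)
    (h : ∀ v, ∀ v' ∈ S, d2 v ≤ nrm2 A a (v - v')) :
    (∫⁻ v, ENNReal.ofReal (Wt A a 0 v * Real.exp (d2 v / 4))) *
      (∫⁻ v in S, ENNReal.ofReal (Wt A a 0 v)) ≤ Hl A a 0 ^ 2 := by
  have hm : Measurable fun v : J → ℝ => ENNReal.ofReal (Wt A a 0 v * Real.exp (d2 v / 4)) :=
    ((Wt_continuous A a 0).measurable.mul
      (Real.measurable_exp.comp (hd.div_const 4))).ennreal_ofReal
  have key := pl_J hm ((Conc_meas A a 0).indicator hS) (Conc_meas A a 0) (fun v v' => by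
      by_cases hv : v' ∈ S
      · rw [Set.indicator_of_mem hv]
        have h1 := Conc_mid0 A a v v'
        have h2 := h v v' hv
        rw [← ENNReal.ofReal_mul (mul_nonneg (Wt_pos A a 0 v).le (Real.exp_pos _).le),
          ← ENNReal.ofReal_pow (Wt_pos A a 0 _).le]
        apply ENNReal.ofReal_le_ofReal
        calc Wt A a 0 v * Real.exp (d2 v / 4) * Wt A a 0 v'
            = Wt A a 0 v * Wt A a 0 v' * Real.exp (d2 v / 4) := by ring
          _ ≤ Wt A a 0 ((1 / 2 : ℝ) • (v + v')) ^ 2 * Real.exp (-(nrm2 A a (v - v')) / 4) *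
              Real.exp (d2 v / 4) := mul_le_mul_of_nonneg_right h1 (Real.exp_pos _).le
          _ = Wt A a 0 ((1 / 2 : ℝ) • (v + v')) ^ 2 *
              Real.exp (-(nrm2 A a (v - v')) / 4 + d2 v / 4) := by
            rw [mul_assoc, ← Real.exp_add]
          _ ≤ Wt A a 0 ((1 / 2 : ℝ) • (v + v')) ^ 2 * 1 := by
            apply mul_le_mul_of_nonneg_left _ (sq_nonneg _)
            apply Real.exp_le_one_iff.2
            linarith
          _ = _ := mul_one _
      · rw [Set.indicator_of_notMem hv, mul_zero]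
        exact zero_le)
  rw [lintegral_indicator hS] at key
  exact key

/-- P3.  `f = Wt 0 e^Φ`, `g = Wt 0 e^{-Φ}`, `h = e^{L²/2} Wt 0`; `-d²/4 + L d ≤ L²` for the square;
`∫ Wt e^{-Φ} = ∫ Wt e^{Φ}` by oddness. -/
theorem exp_lip (A : Q → J → ℤ) (a : Q → ℕ) (Φ : (J → ℝ) → ℝ) (hΦ : Measurable Φ)
    (hodd : ∀ v, Φ (-v) = - Φ v) (L : ℝ) (hL : 0 ≤ L)
    (hlip : ∀ v v', |Φ v - Φ v'| ≤ L * Real.sqrt (nrm2 A a (v - v'))) :
    ∫⁻ v, ENNReal.ofReal (Wt A a 0 v * Real.exp (Φ v)) ≤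
      ENNReal.ofReal (Real.exp (L ^ 2 / 2)) * Hl A a 0 := by
  have hE : 0 ≤ Real.exp (L ^ 2 / 2) := (Real.exp_pos _).le
  have hm : Measurable fun v : J → ℝ => ENNReal.ofReal (Wt A a 0 v * Real.exp (Φ v)) :=
    ((Wt_continuous A a 0).measurable.mul (Real.measurable_exp.comp hΦ)).ennreal_ofReal
  have hm' : Measurable fun v : J → ℝ => ENNReal.ofReal (Wt A a 0 v * Real.exp (-Φ v)) :=
    ((Wt_continuous A a 0).measurable.mul (Real.measurable_exp.comp hΦ.neg)).ennreal_ofReal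
  have key := pl_J hm hm'
    (h := fun v => ENNReal.ofReal (Real.exp (L ^ 2 / 2)) * ENNReal.ofReal (Wt A a 0 v))
    ((Conc_meas A a 0).const_mul _) (fun v v' => by
      have h1 := Conc_mid0 A a v v'
      have h2 := (le_abs_self _).trans (hlip v v')
      have h3 := Real.sq_sqrt (nrm2_nonneg A a (v - v'))
      have h4 := sq_nonneg (Real.sqrt (nrm2 A a (v - v')) / 2 - L)
      rw [← ENNReal.ofReal_mul (mul_nonneg (Wt_pos A a 0 v).le (Real.exp_pos _).le),
        ← ENNReal.ofReal_mul hE, ← ENNReal.ofReal_pow (mul_nonneg hE (Wt_pos A a 0 _).le)]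
      apply ENNReal.ofReal_le_ofReal
      calc Wt A a 0 v * Real.exp (Φ v) * (Wt A a 0 v' * Real.exp (-Φ v'))
          = Wt A a 0 v * Wt A a 0 v' * Real.exp (Φ v - Φ v') := by
            rw [sub_eq_add_neg, Real.exp_add]
            ring
        _ ≤ Wt A a 0 ((1 / 2 : ℝ) • (v + v')) ^ 2 * Real.exp (-(nrm2 A a (v - v')) / 4) *
            Real.exp (Φ v - Φ v') := mul_le_mul_of_nonneg_right h1 (Real.exp_pos _).le
        _ = Wt A a 0 ((1 / 2 : ℝ) • (v + v')) ^ 2 *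
            Real.exp (-(nrm2 A a (v - v')) / 4 + (Φ v - Φ v')) := by
          rw [mul_assoc, ← Real.exp_add]
        _ ≤ Wt A a 0 ((1 / 2 : ℝ) • (v + v')) ^ 2 * Real.exp (2 * (L ^ 2 / 2)) := by
          apply mul_le_mul_of_nonneg_left _ (sq_nonneg _)
          apply Real.exp_le_exp.2
          nlinarith
        _ = _ := by
          rw [mul_pow, ← Real.exp_nat_mul]
          push_cast
          ring)
  have e3 : ∫⁻ v, ENNReal.ofReal (Wt A a 0 v * Real.exp (-Φ v)) =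
      ∫⁻ v, ENNReal.ofReal (Wt A a 0 v * Real.exp (Φ v)) := by
    rw [← Conc_neg]
    refine lintegral_congr fun v => ?_
    rw [hodd, neg_neg]
    have := Wt_neg A a 0 v
    rw [neg_zero] at this
    rw [this]
  rw [e3, lintegral_const_mul _ (Conc_meas A a 0)] at key
  apply Conc_sq_le
  rw [sq (∫⁻ v, ENNReal.ofReal (Wt A a 0 v * Real.exp (Φ v)))]
  exact key

end P047F
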