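import Vale.Agent.Lib.P047F.II.Conc

/-!
# P047F II/Conc2: P4 (mass of sup balls) and P5 (shifted weights)
-/

open MeasureTheory Finset
open scoped ENNReal

namespace P047F

variable {Q J : Type} [Fintype Q] [Fintype J]

/-- the sup ball -/
def SB (A : Q → J → ℤ) (ρ : ℝ) : Set (J → ℝ) := {v | ∀ x, |ev A v x| ≤ ρ}

theorem SB_closed (A : Q → J → ℤ) (ρ : ℝ) : IsClosed (SB A ρ) := by
  have h : SB A ρ = ⋂ x, {v : J → ℝ | |ev A v x| ≤ ρ} := by
    ext v
    simp only [SB, Set.mem_setOf_eq, Set.mem_iInter]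
  rw [h]
  exact isClosed_iInter fun x => isClosed_le (ev_continuous A x).abs continuous_const

private theorem conc2_gg_cont : Continuous gg := by
  have h : LipschitzWith 1200 gg := by
    refine LipschitzWith.of_dist_le_mul fun s t => ?_
    have key : ∀ s t : ℝ, s ≤ t → |gg s - gg t| ≤ 1200 * |s - t| := by
      intro s t hst
      have h1 := gg_lip hst
      have h2 := gg_incr hst
      rw [abs_sub_comm, abs_sub_comm s t, abs_of_nonneg (by linarith), abs_of_nonneg (by linarith)]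
      exact h1
    rw [Real.dist_eq, Real.dist_eq]
    change |gg s - gg t| ≤ 1200 * |s - t|
    rcases le_total s t with hst | hst
    · exact key s t hst
    · rw [abs_sub_comm (gg s), abs_sub_comm s]
      exact key t s hst
  exact h.continuous

private theorem conc2_gg_lip (s t : ℝ) : |gg s - gg t| ≤ 1200 * |s - t| := by
  have key : ∀ s t : ℝ, s ≤ t → |gg s - gg t| ≤ 1200 * |s - t| := by
    intro s t hst
    have h1 := gg_lip hst
    have h2 := gg_incr hst
    rw [abs_sub_comm, abs_sub_comm s t, abs_of_nonneg (by linarith), abs_of_nonneg (by linarith)]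
    exact h1
  rcases le_total s t with hst | hst
  · exact key s t hst
  · rw [abs_sub_comm (gg s), abs_sub_comm s]
    exact key t s hst

private theorem conc2_ev_neg (A : Q → J → ℤ) (v : J → ℝ) (x : Q) : ev A (-v) x = -ev A v x := by
  simp only [ev, Pi.neg_apply, mul_neg, Finset.sum_neg_distrib]

private theorem conc2_Wm (A : Q → J → ℤ) (a : Q → ℕ) (u : Q → ℝ) :
    Measurable fun v : J → ℝ => ENNReal.ofReal (Wt A a u v) :=
  (Wt_continuous A a u).measurable.ennreal_ofReal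

/-- one-sided tail -/
private theorem conc2_tail (A : Q → J → ℤ) (a : Q → ℕ) (ρ l : ℝ) (hρ : 0 < ρ) (hl : 0 < l)
    (hlev : ∀ (v : J → ℝ) (x : Q), ev A v x ^ 2 ≤ l * nrm2 A a v) (x : Q) (s : ℝ)
    (hs : |s| = 1) :
    ∫⁻ v in {v : J → ℝ | ρ < s * ev A v x}, ENNReal.ofReal (Wt A a 0 v) ≤
      ENNReal.ofReal (Real.exp (-ρ ^ 2 / (2 * l))) * Hl A a 0 := by
  have hm : MeasurableSet {v : J → ℝ | ρ < s * ev A v x} :=
    measurableSet_lt measurable_const (measurable_const.mul (ev_continuous A x).measurable)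
  have h1 := exp_lip A a (fun v => ρ / l * (s * ev A v x))
    (measurable_const.mul (measurable_const.mul (ev_continuous A x).measurable))
    (fun v => by rw [conc2_ev_neg]; ring) (ρ / l * √l) (by positivity) (fun v v' => by
      have h2 : ρ / l * (s * ev A v x) - ρ / l * (s * ev A v' x) =
          ρ / l * (s * ev A (v - v') x) := by
        rw [ev_sub]
        ring
      rw [h2, abs_mul, abs_mul, hs, one_mul, abs_of_pos (by positivity : 0 < ρ / l), mul_assoc]
      refine mul_le_mul_of_nonneg_left ?_ (by positivity)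
      rw [← Real.sqrt_mul hl.le]
      exact Real.abs_le_sqrt (hlev (v - v') x))
  have h3 : (ρ / l * √l) ^ 2 / 2 = ρ ^ 2 / (2 * l) := by
    rw [mul_pow, Real.sq_sqrt hl.le]
    field_simp
  rw [h3] at h1
  calc ∫⁻ v in {v : J → ℝ | ρ < s * ev A v x}, ENNReal.ofReal (Wt A a 0 v)
      ≤ ∫⁻ v in {v : J → ℝ | ρ < s * ev A v x}, ENNReal.ofReal (Real.exp (-(ρ ^ 2 / l))) *
          ENNReal.ofReal (Wt A a 0 v * Real.exp (ρ / l * (s * ev A v x))) := by
        refine setLIntegral_mono' hm fun v hv => ?_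
        rw [← ENNReal.ofReal_mul (Real.exp_pos _).le]
        apply ENNReal.ofReal_le_ofReal
        have hv' : ρ < s * ev A v x := hv
        have h4 : 0 ≤ -(ρ ^ 2 / l) + ρ / l * (s * ev A v x) := by
          have h5 : -(ρ ^ 2 / l) + ρ / l * (s * ev A v x) = ρ / l * (s * ev A v x - ρ) := by ring
          rw [h5]
          exact mul_nonneg (by positivity) (by linarith)
        have h6 : Real.exp (-(ρ ^ 2 / l)) * (Wt A a 0 v * Real.exp (ρ / l * (s * ev A v x))) =
            Wt A a 0 v * Real.exp (-(ρ ^ 2 / l) + ρ / l * (s * ev A v x)) := by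
          rw [Real.exp_add]
          ring
        rw [h6]
        exact le_mul_of_one_le_right (Wt_pos A a 0 v).le (Real.one_le_exp h4)
    _ ≤ ∫⁻ v, ENNReal.ofReal (Real.exp (-(ρ ^ 2 / l))) *
          ENNReal.ofReal (Wt A a 0 v * Real.exp (ρ / l * (s * ev A v x))) :=
        setLIntegral_le_lintegral _ _
    _ = ENNReal.ofReal (Real.exp (-(ρ ^ 2 / l))) *
          ∫⁻ v, ENNReal.ofReal (Wt A a 0 v * Real.exp (ρ / l * (s * ev A v x))) := by
        rw [lintegral_const_mul' _ _ ENNReal.ofReal_ne_top]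
    _ ≤ ENNReal.ofReal (Real.exp (-(ρ ^ 2 / l))) *
          (ENNReal.ofReal (Real.exp (ρ ^ 2 / (2 * l))) * Hl A a 0) := by
        gcongr
    _ = ENNReal.ofReal (Real.exp (-ρ ^ 2 / (2 * l))) * Hl A a 0 := by
        rw [← mul_assoc, ← ENNReal.ofReal_mul (Real.exp_pos _).le, ← Real.exp_add]
        congr 3
        field_simp
        ring

/-- P4.  If `(ev v x)² ≤ l · nrm2 v` then `ν₀(|ev v x| > ρ) ≤ 2 exp(-ρ²/(2l))` (`exp_lip` with
`Φ = ± λ ev v x`, `λ = ρ/l`, Markov), union over `x`. -/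
theorem mass_SB (A : Q → J → ℤ) (a : Q → ℕ) (ρ l : ℝ) (hρ : 0 < ρ) (hl : 0 < l)
    (hlev : ∀ (v : J → ℝ) (x : Q), ev A v x ^ 2 ≤ l * nrm2 A a v)
    (hfin : Hl A a 0 < ⊤)
    (hN : 2 * (Fintype.card Q : ℝ) * Real.exp (-ρ ^ 2 / (2 * l)) ≤ 1 / 2) :
    ENNReal.ofReal (1 / 2) * Hl A a 0 ≤ ∫⁻ v in SB A ρ, ENNReal.ofReal (Wt A a 0 v) := by
  have hcompl : ∫⁻ v in (SB A ρ)ᶜ, ENNReal.ofReal (Wt A a 0 v) ≤
      ENNReal.ofReal (1 / 2) * Hl A a 0 := by
    have hsub : (SB A ρ)ᶜ ⊆ ⋃ x : Q, ({v : J → ℝ | ρ < 1 * ev A v x} ∪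
        {v : J → ℝ | ρ < (-1) * ev A v x}) := by
      intro v hv
      simp only [SB, Set.mem_compl_iff, Set.mem_setOf_eq, not_forall, not_le] at hv
      obtain ⟨x, hx⟩ := hv
      refine Set.mem_iUnion.2 ⟨x, ?_⟩
      rcases lt_abs.1 hx with h | h
      · exact Or.inl (by simpa using h)
      · exact Or.inr (by simpa using h)
    calc ∫⁻ v in (SB A ρ)ᶜ, ENNReal.ofReal (Wt A a 0 v)
        ≤ ∫⁻ v in ⋃ x : Q, ({v : J → ℝ | ρ < 1 * ev A v x} ∪
            {v : J → ℝ | ρ < (-1) * ev A v x}), ENNReal.ofReal (Wt A a 0 v) :=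
          lintegral_mono_set hsub
      _ ≤ ∑ x : Q, ∫⁻ v in ({v : J → ℝ | ρ < 1 * ev A v x} ∪
            {v : J → ℝ | ρ < (-1) * ev A v x}), ENNReal.ofReal (Wt A a 0 v) := by
          refine (lintegral_iUnion_le _ _).trans ?_
          rw [tsum_fintype]
      _ ≤ ∑ _x : Q, (ENNReal.ofReal (Real.exp (-ρ ^ 2 / (2 * l))) * Hl A a 0 +
            ENNReal.ofReal (Real.exp (-ρ ^ 2 / (2 * l))) * Hl A a 0) := by
          refine Finset.sum_le_sum fun x _ => (lintegral_union_le _ _ _).trans ?_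
          exact add_le_add (conc2_tail A a ρ l hρ hl hlev x 1 (by norm_num))
            (conc2_tail A a ρ l hρ hl hlev x (-1) (by norm_num))
      _ = ENNReal.ofReal (2 * (Fintype.card Q : ℝ) * Real.exp (-ρ ^ 2 / (2 * l))) * Hl A a 0 := by
          rw [Finset.sum_const, Finset.card_univ, nsmul_eq_mul, ← add_mul, ← mul_assoc]
          congr 1
          rw [← ENNReal.ofReal_add (Real.exp_pos _).le (Real.exp_pos _).le,
            ← ENNReal.ofReal_natCast, ← ENNReal.ofReal_mul (by positivity)]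
          congr 1
          ring
      _ ≤ ENNReal.ofReal (1 / 2) * Hl A a 0 := by
          gcongr
  have hsplit : (∫⁻ v in SB A ρ, ENNReal.ofReal (Wt A a 0 v)) +
      (∫⁻ v in (SB A ρ)ᶜ, ENNReal.ofReal (Wt A a 0 v)) = Hl A a 0 :=
    lintegral_add_compl _ (SB_closed A ρ).measurableSet
  have hhalf : ENNReal.ofReal (1 / 2) * Hl A a 0 + ENNReal.ofReal (1 / 2) * Hl A a 0 =
      Hl A a 0 := by
    rw [← add_mul, ← ENNReal.ofReal_add (by norm_num) (by norm_num)]
    norm_num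
  have hne : ENNReal.ofReal (1 / 2) * Hl A a 0 ≠ ⊤ :=
    ENNReal.mul_ne_top ENNReal.ofReal_ne_top hfin.ne
  have h1 : ENNReal.ofReal (1 / 2) * Hl A a 0 + ENNReal.ofReal (1 / 2) * Hl A a 0 ≤
      (∫⁻ v in SB A ρ, ENNReal.ofReal (Wt A a 0 v)) + ENNReal.ofReal (1 / 2) * Hl A a 0 := by
    rw [hhalf]
    exact hsplit.symm.le.trans (add_le_add_right hcompl _)
  exact (ENNReal.add_le_add_iff_right hne).1 h1

/-- P5.  `Wt u v ≤ Wt 0 v · exp(-Σ a u g(ev v))` (`ww_add_le`), Cauchy-Schwarz and `exp_lip` with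
`Φ v = -2 Σ a_x u_x gg(ev v x)`, Lipschitz constant `2400 √U2` (`gg_lip`, Cauchy-Schwarz):
`(e^{(2400² U2)/2})^{1/2} = e^{1440000 U2}`. -/
theorem shift_le (A : Q → J → ℤ) (a : Q → ℕ) (u : Q → ℝ) (B : Set (J → ℝ))
    (hB : MeasurableSet B) :
    (∫⁻ v in B, ENNReal.ofReal (Wt A a u v)) ^ 2 ≤
      ENNReal.ofReal (Real.exp (2880000 * ∑ x, (a x : ℝ) * u x ^ 2)) *
        (∫⁻ v in B, ENNReal.ofReal (Wt A a 0 v)) * Hl A a 0 := by
  set Ψ : (J → ℝ) → ℝ := fun v => -∑ x, (a x : ℝ) * (u x * gg (ev A v x)) with hΨ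
  have hΨm : Measurable Ψ := by
    have h1 : Continuous Ψ := by
      rw [hΨ]
      refine (continuous_finsetSum _ fun x _ => ?_).neg
      exact continuous_const.mul (continuous_const.mul (conc2_gg_cont.comp (ev_continuous A x)))
    exact h1.measurable
  have hle : ∀ v, Wt A a u v ≤ Wt A a 0 v * Real.exp (Ψ v) := by
    intro v
    have e1 : Real.exp (Ψ v) = ∏ x, Real.exp (-(u x * gg (ev A v x))) ^ (a x) := by
      rw [hΨ]
      simp only
      rw [← Finset.sum_neg_distrib, Real.exp_sum]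
      refine Finset.prod_congr rfl fun x _ => ?_
      rw [← Real.exp_nat_mul]
      congr 1
      ring
    unfold Wt
    rw [e1, ← Finset.prod_mul_distrib]
    refine Finset.prod_le_prod (fun x _ => pow_nonneg (ww_pos _).le _) fun x _ => ?_
    rw [← mul_pow, Pi.zero_apply, zero_add]
    exact pow_le_pow_left₀ (ww_pos _).le (ww_add_le _ _) _
  set U2 : ℝ := ∑ x, (a x : ℝ) * u x ^ 2 with hU2
  have hU2n : 0 ≤ U2 := Finset.sum_nonneg fun x _ => by positivity
  have hlip : ∀ v v', |2 * Ψ v - 2 * Ψ v'| ≤ 2400 * √U2 * √(nrm2 A a (v - v')) := by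
    intro v v'
    have h1 : 2 * Ψ v - 2 * Ψ v' =
        -2 * ∑ x, (a x : ℝ) * (u x * (gg (ev A v x) - gg (ev A v' x))) := by
      rw [hΨ]
      simp only
      have h2 : ∑ x, (a x : ℝ) * (u x * (gg (ev A v x) - gg (ev A v' x))) =
          ∑ x, (a x : ℝ) * (u x * gg (ev A v x)) - ∑ x, (a x : ℝ) * (u x * gg (ev A v' x)) := by
        rw [← Finset.sum_sub_distrib]
        exact Finset.sum_congr rfl fun x _ => by ring
      rw [h2]
      ring
    rw [h1, abs_mul]
    have h3 : |∑ x, (a x : ℝ) * (u x * (gg (ev A v x) - gg (ev A v' x)))| ≤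
        1200 * ∑ x, (√(a x : ℝ) * |u x|) * (√(a x : ℝ) * |ev A (v - v') x|) := by
      refine (Finset.abs_sum_le_sum_abs _ _).trans ?_
      rw [Finset.mul_sum]
      refine Finset.sum_le_sum fun x _ => ?_
      have h4 := conc2_gg_lip (ev A v x) (ev A v' x)
      rw [← ev_sub] at h4
      have h5 : √(a x : ℝ) * √(a x : ℝ) = a x := Real.mul_self_sqrt (Nat.cast_nonneg _)
      rw [abs_mul, abs_mul, abs_of_nonneg (Nat.cast_nonneg (α := ℝ) (a x))]
      calc (a x : ℝ) * (|u x| * |gg (ev A v x) - gg (ev A v' x)|)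
          ≤ (a x : ℝ) * (|u x| * (1200 * |ev A (v - v') x|)) := by gcongr
        _ = 1200 * ((√(a x : ℝ) * |u x|) * (√(a x : ℝ) * |ev A (v - v') x|)) := by
            linear_combination (-(1200 * |u x| * |ev A (v - v') x|)) * h5
    have h6 : ∑ x, (√(a x : ℝ) * |u x|) * (√(a x : ℝ) * |ev A (v - v') x|) ≤
        √U2 * √(nrm2 A a (v - v')) := by
      have h7 := Finset.sum_mul_sq_le_sq_mul_sq Finset.univ (fun x => √(a x : ℝ) * |u x|)
        (fun x => √(a x : ℝ) * |ev A (v - v') x|)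
      have h8 : ∑ x, (√(a x : ℝ) * |u x|) ^ 2 = U2 := by
        rw [hU2]
        refine Finset.sum_congr rfl fun x _ => ?_
        rw [mul_pow, Real.sq_sqrt (Nat.cast_nonneg _), sq_abs]
      have h9 : ∑ x, (√(a x : ℝ) * |ev A (v - v') x|) ^ 2 = nrm2 A a (v - v') := by
        unfold nrm2
        refine Finset.sum_congr rfl fun x _ => ?_
        rw [mul_pow, Real.sq_sqrt (Nat.cast_nonneg _), sq_abs]
      rw [h8, h9] at h7
      rw [← Real.sqrt_mul hU2n]
      exact Real.le_sqrt_of_sq_le h7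
    have h10 : |(-2 : ℝ)| = 2 := by norm_num
    rw [h10]
    calc 2 * |∑ x, (a x : ℝ) * (u x * (gg (ev A v x) - gg (ev A v' x)))|
        ≤ 2 * (1200 * (√U2 * √(nrm2 A a (v - v')))) := by
          refine mul_le_mul_of_nonneg_left (h3.trans ?_) (by norm_num)
          exact mul_le_mul_of_nonneg_left h6 (by norm_num)
      _ = 2400 * √U2 * √(nrm2 A a (v - v')) := by ring
  have hodd : ∀ v, 2 * Ψ (-v) = -(2 * Ψ v) := by
    intro v
    rw [hΨ]
    simp only
    have h1 : ∑ x, (a x : ℝ) * (u x * gg (ev A (-v) x)) =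
        -∑ x, (a x : ℝ) * (u x * gg (ev A v x)) := by
      rw [← Finset.sum_neg_distrib]
      refine Finset.sum_congr rfl fun x _ => ?_
      rw [conc2_ev_neg, gg_odd]
      ring
    rw [h1]
    ring
  have hexp := exp_lip A a (fun v => 2 * Ψ v) (measurable_const.mul hΨm) hodd (2400 * √U2)
    (by positivity) hlip
  have hexp2 : (2400 * √U2) ^ 2 / 2 = 2880000 * U2 := by
    rw [mul_pow, Real.sq_sqrt hU2n]
    ring
  rw [hexp2] at hexp
  -- Cauchy-Schwarz
  set F : (J → ℝ) → ℝ≥0∞ := fun v => ENNReal.ofReal (√(Wt A a 0 v)) with hF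
  set G : (J → ℝ) → ℝ≥0∞ := fun v => ENNReal.ofReal (√(Wt A a 0 v) * Real.exp (Ψ v)) with hG
  have hFm : Measurable F := (Wt_continuous A a 0).sqrt.measurable.ennreal_ofReal
  have hGm : Measurable G :=
    ((Wt_continuous A a 0).sqrt.measurable.mul hΨm.exp).ennreal_ofReal
  have hFG : ∀ v, ENNReal.ofReal (Wt A a u v) ≤ (F * G) v := by
    intro v
    rw [Pi.mul_apply, hF, hG]
    simp only
    rw [← ENNReal.ofReal_mul (Real.sqrt_nonneg _), ← mul_assoc,
      Real.mul_self_sqrt (Wt_pos A a 0 v).le]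
    exact ENNReal.ofReal_le_ofReal (hle v)
  have hF2 : ∀ v, F v ^ (2 : ℝ) = ENNReal.ofReal (Wt A a 0 v) := by
    intro v
    rw [hF]
    simp only
    rw [ENNReal.ofReal_rpow_of_nonneg (Real.sqrt_nonneg _) (by norm_num)]
    congr 1
    rw [Real.rpow_two, Real.sq_sqrt (Wt_pos A a 0 v).le]
  have hG2 : ∀ v, G v ^ (2 : ℝ) = ENNReal.ofReal (Wt A a 0 v * Real.exp (2 * Ψ v)) := by
    intro v
    rw [hG]
    simp only
    rw [ENNReal.ofReal_rpow_of_nonneg (by positivity) (by norm_num)]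
    congr 1
    rw [Real.rpow_two, mul_pow, Real.sq_sqrt (Wt_pos A a 0 v).le, ← Real.exp_nat_mul]
    norm_num
  have hCS : (∫⁻ v in B, (F * G) v) ^ 2 ≤ (∫⁻ v in B, ENNReal.ofReal (Wt A a 0 v)) *
      ∫⁻ v in B, ENNReal.ofReal (Wt A a 0 v * Real.exp (2 * Ψ v)) := by
    have h1 := ENNReal.lintegral_mul_le_Lp_mul_Lq (volume.restrict B)
      (Real.HolderConjugate.two_two) hFm.aemeasurable hGm.aemeasurable
    simp only [hF2, hG2] at h1
    have h2 := pow_le_pow_left' h1 2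
    refine h2.trans (le_of_eq ?_)
    rw [mul_pow, ← ENNReal.rpow_natCast, ← ENNReal.rpow_natCast, ← ENNReal.rpow_mul,
      ← ENNReal.rpow_mul]
    norm_num
  calc (∫⁻ v in B, ENNReal.ofReal (Wt A a u v)) ^ 2
      ≤ (∫⁻ v in B, (F * G) v) ^ 2 := by
        refine pow_le_pow_left' (lintegral_mono fun v => hFG v) 2
    _ ≤ (∫⁻ v in B, ENNReal.ofReal (Wt A a 0 v)) *
      ∫⁻ v in B, ENNReal.ofReal (Wt A a 0 v * Real.exp (2 * Ψ v)) := hCS
    _ ≤ (∫⁻ v in B, ENNReal.ofReal (Wt A a 0 v)) *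
      (ENNReal.ofReal (Real.exp (2880000 * U2)) * Hl A a 0) := by
        gcongr
        exact (setLIntegral_le_lintegral _ _).trans hexp
    _ = ENNReal.ofReal (Real.exp (2880000 * U2)) *
        (∫⁻ v in B, ENNReal.ofReal (Wt A a 0 v)) * Hl A a 0 := by ring

/-- squared distance to a set for the seminorm `sqrt nrm2`, as an infimum; measurable -/
noncomputable def dist2 (A : Q → J → ℤ) (a : Q → ℕ) (S : Set (J → ℝ)) (v : J → ℝ) : ℝ :=
  ⨅ v' : S, nrm2 A a (v - v')

/-- upper semicontinuous (infimum of continuous functions), hence measurable -/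
theorem dist2_measurable (A : Q → J → ℤ) (a : Q → ℕ) (S : Set (J → ℝ)) (hS : S.Nonempty) :
    Measurable (dist2 A a S) := by
  have : Nonempty S := hS.to_subtype
  have hc : ∀ v' : S, Continuous fun v : J → ℝ => nrm2 A a (v - v') := by
    intro v'
    unfold nrm2
    refine continuous_finsetSum _ fun x _ => ?_
    exact continuous_const.mul (((ev_continuous A x).comp (continuous_id.sub continuous_const)).pow 2)
  have h : UpperSemicontinuous (dist2 A a S) := by
    unfold dist2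
    exact upperSemicontinuous_ciInf (fun v => ⟨0, by
      rintro _ ⟨v', rfl⟩
      exact nrm2_nonneg A a _⟩) fun v' => (hc v').upperSemicontinuous
  exact h.measurable

theorem dist2_le (A : Q → J → ℤ) (a : Q → ℕ) (S : Set (J → ℝ)) (v v' : J → ℝ) (hv' : v' ∈ S) :
    dist2 A a S v ≤ nrm2 A a (v - v') := by
  unfold dist2
  exact ciInf_le (f := fun v' : S => nrm2 A a (v - v')) ⟨0, by
    rintro _ ⟨w, rfl⟩
    exact nrm2_nonneg A a _⟩ ⟨v', hv'⟩

theorem le_dist2 (A : Q → J → ℤ) (a : Q → ℕ) (S : Set (J → ℝ)) (hS : S.Nonempty) (v : J → ℝ)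
    (R : ℝ) (h : ∀ v' ∈ S, R ≤ nrm2 A a (v - v')) : R ≤ dist2 A a S v := by
  have : Nonempty S := hS.to_subtype
  exact le_ciInf fun v' => h v' v'.2

/-- P2 in the form of a tail bound: if `S` has at least half of the mass, then the mass of
`{dist2 ≥ R}` is at most `2 e^{-R/4}` -/
theorem tail_dist2 (A : Q → J → ℤ) (a : Q → ℕ) (S : Set (J → ℝ)) (hS : MeasurableSet S)
    (hne : S.Nonempty) (hfin : Hl A a 0 < ⊤)
    (hhalf : ENNReal.ofReal (1 / 2) * Hl A a 0 ≤ ∫⁻ v in S, ENNReal.ofReal (Wt A a 0 v))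
    (R : ℝ) :
    ∫⁻ v in {v | R ≤ dist2 A a S v}, ENNReal.ofReal (Wt A a 0 v) ≤
      ENNReal.ofReal (2 * Real.exp (-R / 4)) * Hl A a 0 := by
  have hdm := dist2_measurable A a S hne
  have hmaur := maurey A a (dist2 A a S) hdm S hS fun v v' hv' => dist2_le A a S v v' hv'
  have hpos := Hl_zero_pos A a
  have hset : MeasurableSet {v | R ≤ dist2 A a S v} := measurableSet_le measurable_const hdm
  have h1 : (∫⁻ v, ENNReal.ofReal (Wt A a 0 v * Real.exp (dist2 A a S v / 4))) ≤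
      ENNReal.ofReal 2 * Hl A a 0 := by
    have h2 : (∫⁻ v, ENNReal.ofReal (Wt A a 0 v * Real.exp (dist2 A a S v / 4))) *
        (ENNReal.ofReal (1 / 2) * Hl A a 0) ≤ Hl A a 0 * Hl A a 0 := by
      refine le_trans ?_ (hmaur.trans (le_of_eq (sq _)))
      gcongr
    rw [← mul_assoc] at h2
    have h3 := (ENNReal.mul_le_mul_iff_left hpos.ne' hfin.ne).1 h2
    have h4 : (∫⁻ v, ENNReal.ofReal (Wt A a 0 v * Real.exp (dist2 A a S v / 4))) =
        ENNReal.ofReal 2 * ((∫⁻ v, ENNReal.ofReal (Wt A a 0 v * Real.exp (dist2 A a S v / 4))) *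
          ENNReal.ofReal (1 / 2)) := by
      rw [mul_comm (∫⁻ v, ENNReal.ofReal (Wt A a 0 v * Real.exp (dist2 A a S v / 4))), ← mul_assoc,
        ← ENNReal.ofReal_mul (by norm_num)]
      norm_num
    rw [h4]
    gcongr
  calc ∫⁻ v in {v | R ≤ dist2 A a S v}, ENNReal.ofReal (Wt A a 0 v)
      ≤ ∫⁻ v in {v | R ≤ dist2 A a S v}, ENNReal.ofReal (Real.exp (-R / 4)) *
          ENNReal.ofReal (Wt A a 0 v * Real.exp (dist2 A a S v / 4)) := by
        refine setLIntegral_mono' hset fun v hv => ?_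
        rw [← ENNReal.ofReal_mul (Real.exp_pos _).le]
        apply ENNReal.ofReal_le_ofReal
        have hv' : R ≤ dist2 A a S v := hv
        have h6 : Real.exp (-R / 4) * (Wt A a 0 v * Real.exp (dist2 A a S v / 4)) =
            Wt A a 0 v * Real.exp (-R / 4 + dist2 A a S v / 4) := by
          rw [Real.exp_add]
          ring
        rw [h6]
        exact le_mul_of_one_le_right (Wt_pos A a 0 v).le (Real.one_le_exp (by linarith))
    _ ≤ ∫⁻ v, ENNReal.ofReal (Real.exp (-R / 4)) *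
          ENNReal.ofReal (Wt A a 0 v * Real.exp (dist2 A a S v / 4)) :=
        setLIntegral_le_lintegral _ _
    _ = ENNReal.ofReal (Real.exp (-R / 4)) *
          ∫⁻ v, ENNReal.ofReal (Wt A a 0 v * Real.exp (dist2 A a S v / 4)) := by
        rw [lintegral_const_mul' _ _ ENNReal.ofReal_ne_top]
    _ ≤ ENNReal.ofReal (Real.exp (-R / 4)) * (ENNReal.ofReal 2 * Hl A a 0) := by
        gcongr
    _ = ENNReal.ofReal (2 * Real.exp (-R / 4)) * Hl A a 0 := by
        rw [← mul_assoc, ← ENNReal.ofReal_mul (Real.exp_pos _).le, mul_comm 2 (Real.exp (-R / 4))]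

end P047F
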