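import Vale.Agent.Lib.P047F.II.Base

/-!
# P047F II/Unfold: the unit box and unfolding of integer-periodic functions
-/

open MeasureTheory Finset
open scoped ENNReal

namespace P047F

variable {J : Type} [Fintype J]

/-- the unit box `[0,1)^J` -/
def box (J : Type) : Set (J → ℝ) := Set.pi Set.univ (fun _ : J => Set.Ico (0 : ℝ) 1)

theorem box_measurable : MeasurableSet (box J) :=
  MeasurableSet.univ_pi fun _ => measurableSet_Ico

theorem volume_box : volume (box J) = 1 := by
  unfold box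
  rw [Real.volume_pi_Ico]
  simp

private theorem Unfold_mem_box (c : J → ℝ) : c ∈ box J ↔ ∀ j, 0 ≤ c j ∧ c j < 1 := by
  simp only [box, Set.mem_pi, Set.mem_univ, true_imp_iff, Set.mem_Ico]

/-- every vector is in exactly one integer translate of the box -/
theorem exists_int_box (c : J → ℝ) : ∃! k : J → ℤ, (fun j => c j - k j) ∈ box J := by
  refine ⟨fun j => ⌊c j⌋, ?_, ?_⟩
  · change (fun j => c j - ((⌊c j⌋ : ℤ) : ℝ)) ∈ box J
    rw [Unfold_mem_box]
    intro j
    exact ⟨Int.fract_nonneg _, Int.fract_lt_one _⟩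
  · intro k hk
    change (fun j => c j - ((k j : ℤ) : ℝ)) ∈ box J at hk
    rw [Unfold_mem_box] at hk
    funext j
    have h := hk j
    symm
    rw [Int.floor_eq_iff]
    exact ⟨by linarith [h.1], by linarith [h.2]⟩

/-- translation by an integer vector -/
private def Unfold_tr (k : J → ℤ) (c : J → ℝ) : J → ℝ := fun j => c j + (k j : ℝ)

private theorem Unfold_tr_eq (k : J → ℤ) :
    (Unfold_tr k : (J → ℝ) → (J → ℝ)) = fun c => c + (fun j => (k j : ℝ)) := rfl

private theorem Unfold_mp (k : J → ℤ) :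
    MeasurePreserving (Unfold_tr k : (J → ℝ) → (J → ℝ)) volume volume := by
  rw [Unfold_tr_eq]
  exact measurePreserving_add_right volume _

private theorem Unfold_emb (k : J → ℤ) :
    MeasurableEmbedding (Unfold_tr k : (J → ℝ) → (J → ℝ)) := by
  rw [Unfold_tr_eq]
  exact (MeasurableEquiv.addRight (fun j => (k j : ℝ))).measurableEmbedding

/-- the translated box -/
private def Unfold_bk (k : J → ℤ) : Set (J → ℝ) := {c | (fun j => c j - (k j : ℝ)) ∈ box J}

private theorem Unfold_bk_meas (k : J → ℤ) : MeasurableSet (Unfold_bk k) := by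
  have h : Measurable (fun (c : J → ℝ) => fun j => c j - (k j : ℝ)) := by
    fun_prop
  exact h box_measurable

private theorem Unfold_sum (F : (J → ℝ) → ℝ≥0∞)
    (hper : ∀ (c : J → ℝ) (k : J → ℤ), F (fun j => c j + k j) = F c) (X : Set (J → ℝ)) :
    ∑' k : J → ℤ, ∫⁻ c in {c | c ∈ box J ∧ (fun j => c j + (k j : ℝ)) ∈ X}, F c =
      ∫⁻ c in X, F c := by
  have h1 : ∀ k : J → ℤ, ∫⁻ c in {c | c ∈ box J ∧ (fun j => c j + (k j : ℝ)) ∈ X}, F c =
      ∫⁻ c in Unfold_bk k, F c ∂(volume.restrict X) := by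
    intro k
    rw [Measure.restrict_restrict (Unfold_bk_meas k)]
    rw [← (Unfold_mp k).setLIntegral_comp_preimage_emb (Unfold_emb k) F (Unfold_bk k ∩ X)]
    have e1 : (Unfold_tr k) ⁻¹' (Unfold_bk k ∩ X) =
        {c | c ∈ box J ∧ (fun j => c j + (k j : ℝ)) ∈ X} := by
      ext c
      change ((fun j => (c j + (k j : ℝ)) - (k j : ℝ)) ∈ box J ∧ _) ↔ _
      have e2 : (fun j => (c j + (k j : ℝ)) - (k j : ℝ)) = c := by
        funext j
        ring
      rw [e2]
      rfl
    rw [e1]
    refine lintegral_congr fun c => ?_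
    exact (hper c k).symm
  rw [tsum_congr h1, ← lintegral_iUnion Unfold_bk_meas]
  · have e3 : (⋃ k : J → ℤ, Unfold_bk k) = Set.univ := by
      refine Set.eq_univ_of_forall fun c => ?_
      obtain ⟨k, hk, _⟩ := exists_int_box c
      exact Set.mem_iUnion.2 ⟨k, hk⟩
    rw [e3, Measure.restrict_univ]
  · intro k k' hkk
    rw [Function.onFun, Set.disjoint_left]
    intro c hc hc'
    exact hkk ((exists_int_box c).unique hc hc')

/-- Unfolding, upper bound, for an ARBITRARY set `X`: the left side is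
`≤ Σ_k ∫⁻_{c ∈ box, c + k ∈ X} F = Σ_k ∫⁻_{X ∩ (box + k)} F = ∫⁻_X F`
(translation invariance; `box + k` is a measurable partition; `Measure.restrict_restrict` only
needs measurability of `box + k`). -/
theorem unfold_le (F : (J → ℝ) → ℝ≥0∞) (hF : Measurable F)
    (hper : ∀ (c : J → ℝ) (k : J → ℤ), F (fun j => c j + k j) = F c) (X : Set (J → ℝ)) :
    ∫⁻ c in {c | c ∈ box J ∧ ∃ k : J → ℤ, (fun j => c j + (k j : ℝ)) ∈ X}, F c ≤
      ∫⁻ c in X, F c := by
  have _ := hF
  rw [← Unfold_sum F hper X]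
  refine le_trans (lintegral_mono_set ?_) (lintegral_iUnion_le _ _)
  rintro c ⟨hc, k, hk⟩
  exact Set.mem_iUnion.2 ⟨k, hc, hk⟩

/-- Unfolding, lower bound, for a measurable set with disjoint integer translates -/
theorem unfold_ge (F : (J → ℝ) → ℝ≥0∞) (hF : Measurable F)
    (hper : ∀ (c : J → ℝ) (k : J → ℤ), F (fun j => c j + k j) = F c) (X : Set (J → ℝ))
    (hX : MeasurableSet X)
    (hdis : ∀ c ∈ X, ∀ k : J → ℤ, (fun j => c j + (k j : ℝ)) ∈ X → k = 0) :
    ∫⁻ c in X, F c ≤
      ∫⁻ c in {c | c ∈ box J ∧ ∃ k : J → ℤ, (fun j => c j + (k j : ℝ)) ∈ X}, F c := by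
  have _ := hF
  rw [← Unfold_sum F hper X, ← lintegral_iUnion]
  · refine lintegral_mono_set ?_
    intro c hc
    obtain ⟨k, hc, hk⟩ := Set.mem_iUnion.1 hc
    exact ⟨hc, k, hk⟩
  · intro k
    have h : MeasurableSet ((Unfold_tr k) ⁻¹' X) := (Unfold_mp k).measurable hX
    exact box_measurable.inter h
  · intro k k' hkk
    rw [Function.onFun, Set.disjoint_left]
    rintro c ⟨_, hc⟩ ⟨_, hc'⟩
    have h := hdis _ hc (fun j => k' j - k j) (by
      have e : (fun j => (c j + (k j : ℝ)) + ((k' j - k j : ℤ) : ℝ)) =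
          fun j => c j + (k' j : ℝ) := by
        funext j
        push_cast
        ring
      rw [e]
      exact hc')
    apply hkk
    funext j
    have h1 : k' j - k j = 0 := congrFun h j
    omega

end P047F
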