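import Vale.Agent.Lib.P047F.Defs

/-!
# P047F: valid colourings and the sub-Gaussian property (interface between Part II and Part III)
-/

open Finset

namespace P047F

variable {Q J : Type} [Fintype Q] [Fintype J]

open Classical in
/-- valid colourings of `Y`: `±1` on `Y`, `0` off `Y`, orthogonal to all columns of `A` -/
noncomputable def Valid (A : Q → J → ℤ) (Y : Finset Q) : Finset (Q → ℤ) :=
  (Fintype.piFinset (fun x => if x ∈ Y then ({1, -1} : Finset ℤ) else {0})).filter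
    (fun z => ∀ j, ∑ x, z x * A x j = 0)

theorem mem_Valid (A : Q → J → ℤ) (Y : Finset Q) (z : Q → ℤ) :
    z ∈ Valid A Y ↔ (∀ x ∈ Y, z x = 1 ∨ z x = -1) ∧ (∀ x, x ∉ Y → z x = 0) ∧
      ∀ j, ∑ x, z x * A x j = 0 := by
  simp only [Valid, Finset.mem_filter, Fintype.mem_piFinset]
  rw [← and_assoc]
  refine and_congr_left fun _ => ?_
  constructor
  · intro h
    refine ⟨fun x hx => ?_, fun x hx => ?_⟩
    · have h1 := h x
      rw [if_pos hx] at h1
      simpa using h1
    · have h1 := h x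
      rw [if_neg hx] at h1
      simpa using h1
  · rintro ⟨h1, h2⟩ x
    by_cases hx : x ∈ Y
    · rw [if_pos hx]
      simpa using h1 x hx
    · rw [if_neg hx]
      simpa using h2 x hx

/-- sub-Gaussian property of the uniform measure on `Valid A Y`, for ALL `h : Q → ℝ`, with the
absolute constants `12` and `exp 8 + 1` -/
def SubG (A : Q → J → ℤ) (Y : Finset Q) : Prop :=
  0 < (Valid A Y).card ∧ ∀ h : Q → ℝ,
    ∑ z ∈ Valid A Y, Real.exp (∑ x ∈ Y, (z x : ℝ) * h x) ≤
      12 * Real.exp ((Real.exp 8 + 1) * ∑ x ∈ Y, h x ^ 2) * (Valid A Y).card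

/-- output of Part II for Part III -/
def PartSG : Prop :=
  ∀ κ : ℝ, 0 < κ → κ ≤ 1 → ∃ n0 : ℕ, ∀ n : ℕ, n0 ≤ n →
    ∀ (Q J : Type) [Fintype Q] [Fintype J] (A : Q → J → ℤ),
    Fintype.card Q = 2 ^ n → Good A (Real.exp (-(n : ℝ) / 1000)) (1 / 1000) →
    ∀ Y : Finset Q, Nice A Y κ → (∀ j, Even (∑ x ∈ Y, A x j)) → SubG A Y

end P047F
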