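import Vale.Agent.Lib.P047F.II.Cluster
import Vale.Agent.Lib.P047F.II.Unfold
import Vale.Agent.Lib.P047F.II.Valid

/-!
# P047F II/CountX: orthogonality on the box
-/

open MeasureTheory Finset

namespace P047F

variable {Q J : Type} [Fintype Q] [Fintype J]

theorem box_exp_one (m : ℤ) :
    ∫ t in Set.Ico (0 : ℝ) 1, Complex.exp (Complex.I * Real.pi * (((2 * m : ℤ) : ℂ) * (t : ℂ))) =
      if m = 0 then 1 else 0 := by
  rw [integral_Ico_eq_integral_Ioc, ← intervalIntegral.integral_of_le zero_le_one]
  split_ifs with h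
  · subst h
    simp
  · have hc : (2 * m * Real.pi * Complex.I : ℂ) ≠ 0 := by
      have h1 : (m : ℂ) ≠ 0 := by exact_mod_cast h
      have h2 : (Real.pi : ℂ) ≠ 0 := by exact_mod_cast Real.pi_ne_zero
      simp [h1, h2, Complex.I_ne_zero]
    have h3 : ∀ t : ℝ, Complex.exp (Complex.I * Real.pi * (((2 * m : ℤ) : ℂ) * (t : ℂ))) =
        Complex.exp ((2 * m * Real.pi * Complex.I : ℂ) * t) := by
      intro t
      congr 1
      push_cast
      ring
    simp only [h3]
    rw [integral_exp_mul_complex hc]
    have h4 : (2 * m * Real.pi * Complex.I : ℂ) * ((1 : ℝ) : ℂ) = m * (2 * Real.pi * Complex.I) := by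
      push_cast
      ring
    rw [h4, Complex.exp_int_mul_two_pi_mul_I]
    simp

/-- orthogonality: `∫_box e^{iπ k·c} dc = 1[k = 0]` for a vector `k` of even integers
(product of one dimensional integrals) -/
theorem box_exp (k : J → ℤ) (hk : ∀ j, Even (k j)) :
    ∫ c in box J, Complex.exp (Complex.I * Real.pi * ∑ j, (k j : ℂ) * (c j : ℂ)) =
      if k = 0 then 1 else 0 := by
  classical
  choose m hm using fun j => (hk j)
  have hm' : ∀ j, k j = 2 * m j := fun j => by rw [hm j]; ring
  have h1 : ∀ c : J → ℝ, Complex.exp (Complex.I * Real.pi * ∑ j, (k j : ℂ) * (c j : ℂ)) =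
      ∏ j, Complex.exp (Complex.I * Real.pi * (((2 * m j : ℤ) : ℂ) * (c j : ℂ))) := by
    intro c
    rw [← Complex.exp_sum, Finset.mul_sum]
    congr 1
    refine Finset.sum_congr rfl fun j _ => ?_
    rw [hm' j]
  simp only [h1]
  unfold box
  rw [volume_pi, Measure.restrict_pi_pi]
  rw [integral_fintype_prod_eq_prod (fun j (t : ℝ) =>
    Complex.exp (Complex.I * Real.pi * (((2 * m j : ℤ) : ℂ) * (t : ℂ))))]
  simp only [box_exp_one]
  rw [Finset.prod_ite_zero]
  simp only [Finset.mem_univ, forall_true_left, Finset.prod_const_one]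
  have h2 : (∀ j, m j = 0) ↔ k = 0 := by
    constructor
    · intro h
      funext j
      rw [hm' j, h j]
      simp
    · intro h j
      have := congrFun h j
      rw [hm' j] at this
      simpa using this
  simp only [h2]

end P047F
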