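import Vale.Agent.Lib.P047F.II.Cluster
import Vale.Agent.Lib.P047F.II.Unfold

/-!
# P047F II/Shell: the contribution outside the main lobes
-/

open MeasureTheory Finset
open scoped ENNReal

namespace P047F

variable {Q J : Type} [Fintype Q] [Fintype J]

private theorem Shell_dz_add (t : ℝ) (n : ℤ) : dz (t + n) = dz t := by
  unfold dz
  rw [round_add_intCast]
  push_cast
  congr 1
  ring

private theorem Shell_ev_int (A : Q → J → ℤ) (c : J → ℝ) (k : J → ℤ) (x : Q) :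
    ev A (fun j => c j + k j) x = ev A c x + ((∑ j, A x j * k j : ℤ) : ℝ) := by
  rw [← ev_int, ← ev_add]
  rfl

/-- `En` is integer periodic -/
theorem En_periodic (A : Q → J → ℤ) (Y : Finset Q) (c : J → ℝ) (k : J → ℤ) :
    En A Y (fun j => c j + k j) = En A Y c := by
  unfold En
  refine Finset.sum_congr rfl fun x _ => ?_
  rw [Shell_ev_int, Shell_dz_add]

theorem En_le_card (A : Q → J → ℤ) (c : J → ℝ) :
    En A Finset.univ c ≤ (Fintype.card Q : ℝ) / 4 := by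
  unfold En
  have h : ∀ x ∈ (Finset.univ : Finset Q), dz (ev A c x) ^ 2 ≤ 1 / 4 := by
    intro x _
    have h1 : dz (ev A c x) ≤ 1 / 2 := abs_sub_round _
    have h2 : 0 ≤ dz (ev A c x) := abs_nonneg _
    nlinarith
  calc _ ≤ (Finset.univ : Finset Q).card • (1 / 4 : ℝ) := Finset.sum_le_card_nsmul _ _ _ h
    _ = _ := by
      rw [nsmul_eq_mul, Finset.card_univ]
      ring

theorem En_zero (A : Q → J → ℤ) (Y : Finset Q) : En A Y 0 = 0 := by
  unfold En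
  apply Finset.sum_eq_zero
  intro x _
  have h : ev A (0 : J → ℝ) x = 0 := by
    simp [ev]
  rw [h]
  simp [dz]

private theorem Shell_zero_mem (A : Q → J → ℤ) {ρ : ℝ} (h : 0 ≤ ρ) : (0 : J → ℝ) ∈ SB A ρ := by
  intro x
  have h1 : ev A (0 : J → ℝ) x = 0 := by
    simp [ev]
  rw [h1, abs_zero]
  exact h

/-- Cover at `M = 1/(2δ)` has at most one centre (`e^{1/2} < 2`), which also serves `0`:
so `c` is within `2/1000 + 1/1000` of an integer vector. -/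
theorem small_energy (A : Q → J → ℤ) {δ : ℝ} (hδ : 0 < δ) (hcov : Cover A δ (1 / 1000))
    (c b : J → ℝ) (hb : b ∈ SB A (1 / 1000)) (hE : En A Finset.univ (c - b) ≤ 1 / (2 * δ)) :
    ∃ k : J → ℤ, (fun j => c j + (k j : ℝ)) ∈ SB A (3 / 1000) := by
  obtain ⟨C, hC, hcC⟩ := hcov (1 / (2 * δ)) (by positivity)
  have e1 : δ * (1 / (2 * δ)) = 1 / 2 := by field_simp
  rw [e1] at hC
  have h2 : Real.exp (1 / 2) < 2 := by
    have h3 : Real.exp (1 / 2) ^ 2 = Real.exp 1 := by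
      rw [← Real.exp_nat_mul]
      norm_num
    have h4 := Real.exp_one_lt_d9
    have h5 := Real.exp_pos (1 / 2)
    nlinarith
  have hC1 : C.card ≤ 1 := by
    have : (C.card : ℝ) < 2 := lt_of_le_of_lt hC h2
    have h6 : C.card < 2 := by exact_mod_cast this
    omega
  obtain ⟨c0, h0, k, hk⟩ := hcC (c - b) hE
  obtain ⟨c1, h1, k', hk'⟩ := hcC 0 (by rw [En_zero]; positivity)
  have e2 : c1 = c0 := Finset.card_le_one.1 hC1 c1 h1 c0 h0
  subst e2
  refine ⟨fun j => k' j - k j, fun x => ?_⟩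
  have e3 : (fun j => c j + (((k' j - k j : ℤ)) : ℝ)) =
      ((fun j => (c - b) j - c1 j - (k j : ℝ)) + b) -
        (fun j => (0 : J → ℝ) j - c1 j - (k' j : ℝ)) := by
    funext j
    simp only [Pi.add_apply, Pi.sub_apply, Pi.zero_apply]
    push_cast
    ring
  rw [e3, ev_sub, ev_add]
  have g1 := abs_le.1 (hk x)
  have g2 := abs_le.1 (hk' x)
  have g3 := abs_le.1 (hb x)
  rw [abs_le]
  constructor <;> linarith [g1.1, g1.2, g2.1, g2.2, g3.1, g3.2]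

/-- the points near energy `≤ M` lie in few clusters of radius `1/500` -/
theorem shell_cover (A : Q → J → ℤ) {δ : ℝ} (hcov : Cover A δ (1 / 1000)) (M : ℝ) (hM : 0 ≤ M) :
    ∃ C : Finset (J → ℝ), (C.card : ℝ) ≤ Real.exp (δ * M) ∧
      ∀ c b : J → ℝ, b ∈ SB A (1 / 1000) → En A Finset.univ (c - b) ≤ M →
        ∃ c0 ∈ C, ∃ k : J → ℤ, ∀ x, |ev A ((fun j => c j + (k j : ℝ)) - c0) x| ≤ 1 / 500 := by
  obtain ⟨C, hC, hcC⟩ := hcov M hM
  refine ⟨C, hC, fun c b hb hE => ?_⟩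
  obtain ⟨c0, h0, k, hk⟩ := hcC (c - b) hE
  refine ⟨c0, h0, fun j => -k j, fun x => ?_⟩
  have e3 : (fun j => c j + (((-k j : ℤ)) : ℝ)) - c0 =
      (fun j => (c - b) j - c0 j - (k j : ℝ)) + b := by
    funext j
    simp only [Pi.add_apply, Pi.sub_apply]
    push_cast
    ring
  rw [e3, ev_add]
  have g1 := abs_le.1 (hk x)
  have g3 := abs_le.1 (hb x)
  rw [abs_le]
  constructor <;> linarith [g1.1, g1.2, g3.1, g3.2]

/-- one shell: apply `unfold_le` to each of the `≤ exp(2δM)` clusters of `shell_cover (2M)` with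
`X = {c | |ev (c - c0)| ≤ 1/500, ∀ b, M < En (c-b)}` and `cluster_bound`. -/
theorem shell_bound {κ : ℝ} (hκ : 0 < κ) (hκ1 : κ ≤ 1) (A : Q → J → ℤ) (a : Q → ℕ)
    {δ : ℝ} (hδ : 0 < δ) (hcov : Cover A δ (1 / 1000))
    (hnice : ∀ c : J → ℝ, κ * En A Finset.univ c ≤ ∑ x, (a x : ℝ) * dz (ev A c x) ^ 2)
    (hfin : Hl A a 0 < ⊤)
    (hhalf : ENNReal.ofReal (1 / 2) * Hl A a 0 ≤
      ∫⁻ v in SB A (1 / 1000), ENNReal.ofReal (Wt A a 0 v))
    (μ : Q → ℝ) (M : ℝ) (hM : 0 ≤ M) :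
    ∫⁻ c in {c | c ∈ box J ∧ (∀ b ∈ SB A (1 / 1000), M < En A Finset.univ (c - b)) ∧
        ∃ b ∈ SB A (1 / 1000), En A Finset.univ (c - b) ≤ 2 * M},
      ENNReal.ofReal (FG A a μ c) ≤
      ENNReal.ofReal (Real.exp (2 * δ * M) * (2 * Real.exp (Real.exp 8 * ∑ x, (a x : ℝ) * μ x ^ 2) *
        Real.exp (-(cb κ * M)))) * Hl A a 0 := by
  obtain ⟨C, hC, hcC⟩ := shell_cover A hcov (2 * M) (by linarith)
  have hF : Measurable fun c : J → ℝ => ENNReal.ofReal (FG A a μ c) :=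
    (FG_continuous A a μ).measurable.ennreal_ofReal
  have hper : ∀ (c : J → ℝ) (k : J → ℤ), (fun c : J → ℝ => ENNReal.ofReal (FG A a μ c))
      (fun j => c j + k j) = (fun c : J → ℝ => ENNReal.ofReal (FG A a μ c)) c := by
    intro c k
    simp only [FG_periodic]
  set X : (J → ℝ) → Set (J → ℝ) := fun c0 => {c | (∀ x, |ev A (c - c0) x| ≤ 1 / 500) ∧
    ∀ b ∈ SB A (1 / 1000), M < En A Finset.univ (c - b)} with hXdef
  have hsub : {c | c ∈ box J ∧ (∀ b ∈ SB A (1 / 1000), M < En A Finset.univ (c - b)) ∧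
      ∃ b ∈ SB A (1 / 1000), En A Finset.univ (c - b) ≤ 2 * M} ⊆
      ⋃ c0 : C, {c | c ∈ box J ∧ ∃ k : J → ℤ, (fun j => c j + (k j : ℝ)) ∈ X c0.1} := by
    rintro c ⟨hc, h1, b, hb, h2⟩
    obtain ⟨c0, h0, k, hk⟩ := hcC c b hb h2
    refine Set.mem_iUnion.2 ⟨⟨c0, h0⟩, hc, k, hk, fun b' hb' => ?_⟩
    have e1 : (fun j => c j + (k j : ℝ)) - b' = fun j => (c - b') j + (k j : ℝ) := by
      funext j
      simp only [Pi.sub_apply]
      ring
    rw [e1, En_periodic]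
    exact h1 b' hb'
  set B : ℝ≥0∞ := ENNReal.ofReal (2 * Real.exp (Real.exp 8 * ∑ x, (a x : ℝ) * μ x ^ 2) *
        Real.exp (-(cb κ * M))) * Hl A a 0 with hB
  have hone : ∀ c0 : C, ∫⁻ c in {c | c ∈ box J ∧ ∃ k : J → ℤ,
      (fun j => c j + (k j : ℝ)) ∈ X c0.1}, ENNReal.ofReal (FG A a μ c) ≤ B := by
    intro c0
    refine (unfold_le _ hF hper (X c0.1)).trans ?_
    refine cluster_bound hκ hκ1 A a hnice hfin hhalf μ c0.1 M hM (X c0.1) fun c hc => ?_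
    refine ⟨fun x => (hc.1 x).trans (by norm_num), hc.2⟩
  calc _ ≤ ∫⁻ c in ⋃ c0 : C, {c | c ∈ box J ∧ ∃ k : J → ℤ,
          (fun j => c j + (k j : ℝ)) ∈ X c0.1}, ENNReal.ofReal (FG A a μ c) :=
        lintegral_mono_set hsub
    _ ≤ ∑' c0 : C, ∫⁻ c in {c | c ∈ box J ∧ ∃ k : J → ℤ,
          (fun j => c j + (k j : ℝ)) ∈ X c0.1}, ENNReal.ofReal (FG A a μ c) :=
        lintegral_iUnion_le _ _
    _ ≤ ∑' _ : C, B := ENNReal.tsum_le_tsum hone
    _ = (C.card : ℝ≥0∞) * B := by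
        rw [tsum_fintype, Finset.sum_const, nsmul_eq_mul, Finset.card_univ, Fintype.card_coe]
    _ ≤ ENNReal.ofReal (Real.exp (2 * δ * M)) * B := by
        gcongr
        rw [← ENNReal.ofReal_natCast]
        apply ENNReal.ofReal_le_ofReal
        calc (C.card : ℝ) ≤ Real.exp (δ * (2 * M)) := hC
          _ = _ := by congr 1; ring
    _ = _ := by
        rw [hB, ← mul_assoc, ← ENNReal.ofReal_mul (Real.exp_pos _).le]

private theorem Shell_num (n : ℕ) (q : ℝ) (hq : 10 ≤ q) :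
    Real.exp (2 ^ n) * (2 * Real.exp (-(q * 2 ^ n))) ≤ 1 / 16 * (1 / 2) ^ n := by
  have h1 : ((n : ℝ) + 1) ≤ 2 ^ n := by
    have : n + 1 ≤ 2 ^ n := Nat.lt_two_pow_self
    exact_mod_cast this
  have h2 : Real.exp (2 ^ n) * (2 * Real.exp (-(q * 2 ^ n))) =
      2 * Real.exp (2 ^ n + -(q * 2 ^ n)) := by
    rw [Real.exp_add]
    ring
  have h3 : (2 : ℝ) ^ n + -(q * 2 ^ n) ≤ ((n + 1 : ℕ) : ℝ) * (-9) := by
    push_cast
    have h4 : 0 ≤ (q - 10) * 2 ^ n := mul_nonneg (by linarith) (by positivity)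
    nlinarith
  have h5 : Real.exp (-9) ≤ 1 / 32 := by
    have h6 : (1 + 1 : ℝ) ≤ Real.exp 1 := Real.add_one_le_exp 1
    have h7 : (1 + 1 : ℝ) ^ 9 ≤ Real.exp 1 ^ 9 := pow_le_pow_left₀ (by norm_num) h6 9
    have h8 : Real.exp 1 ^ 9 = Real.exp 9 := by
      rw [← Real.exp_nat_mul]
      norm_num
    rw [h8] at h7
    rw [Real.exp_neg, ← one_div]
    apply one_div_le_one_div_of_le (by norm_num)
    norm_num at h7
    linarith
  rw [h2]
  calc 2 * Real.exp (2 ^ n + -(q * 2 ^ n)) ≤ 2 * Real.exp (((n + 1 : ℕ) : ℝ) * (-9)) := by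
        gcongr
    _ = 2 * Real.exp (-9) ^ (n + 1) := by rw [Real.exp_nat_mul]
    _ ≤ 2 * (1 / 32) ^ (n + 1) := by
        gcongr
    _ = 1 / 16 * (1 / 32) ^ n := by rw [pow_succ]; ring
    _ ≤ 1 / 16 * (1 / 2) ^ n := by
        gcongr
        norm_num

/-- sum over the shells `M = 2^k/(2δ)`: `Σ_k 2 exp(2^k (1 - cb/(2δ))) ≤ Σ 2 exp(-9·2^k) ≤ 1/8` -/
theorem shell_total {κ : ℝ} (hκ : 0 < κ) (hκ1 : κ ≤ 1) (A : Q → J → ℤ) (a : Q → ℕ)
    {δ : ℝ} (hδ : 0 < δ) (hδ2 : δ ≤ cb κ / 20) (hcov : Cover A δ (1 / 1000))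
    (hnice : ∀ c : J → ℝ, κ * En A Finset.univ c ≤ ∑ x, (a x : ℝ) * dz (ev A c x) ^ 2)
    (hfin : Hl A a 0 < ⊤)
    (hhalf : ENNReal.ofReal (1 / 2) * Hl A a 0 ≤
      ∫⁻ v in SB A (1 / 1000), ENNReal.ofReal (Wt A a 0 v))
    (μ : Q → ℝ) :
    ∫⁻ c in {c | c ∈ box J ∧ ¬ ∃ k : J → ℤ, (fun j => c j + (k j : ℝ)) ∈ SB A (3 / 1000)},
      ENNReal.ofReal (FG A a μ c) ≤
      ENNReal.ofReal (1 / 8 * Real.exp (Real.exp 8 * ∑ x, (a x : ℝ) * μ x ^ 2)) * Hl A a 0 := by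
  set Ms : ℕ → ℝ := fun n => 2 ^ n / (2 * δ) with hMs
  have hMs0 : ∀ n, 0 ≤ Ms n := fun n => by positivity
  have hMs1 : ∀ n, Ms (n + 1) = 2 * Ms n := fun n => by
    simp only [hMs, pow_succ]
    ring
  set Sh : ℕ → Set (J → ℝ) := fun n => {c | c ∈ box J ∧
    (∀ b ∈ SB A (1 / 1000), Ms n < En A Finset.univ (c - b)) ∧
        ∃ b ∈ SB A (1 / 1000), En A Finset.univ (c - b) ≤ 2 * Ms n} with hSh
  have hsub : {c | c ∈ box J ∧ ¬ ∃ k : J → ℤ, (fun j => c j + (k j : ℝ)) ∈ SB A (3 / 1000)} ⊆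
      ⋃ n, Sh n := by
    rintro c ⟨hc, hno⟩
    have h0 : ∀ b ∈ SB A (1 / 1000), Ms 0 < En A Finset.univ (c - b) := by
      intro b hb
      by_contra hcon
      apply hno
      apply small_energy A hδ hcov c b hb
      have h1 : Ms 0 = 1 / (2 * δ) := by
        simp only [hMs, pow_zero]
      rw [← h1]
      exact not_lt.1 hcon
    have hex : ∃ n, ∃ b ∈ SB A (1 / 1000), En A Finset.univ (c - b) ≤ 2 * Ms n := by
      obtain ⟨n, hn⟩ := pow_unbounded_of_one_lt ((Fintype.card Q : ℝ) / 4 * (2 * δ)) one_lt_two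
      refine ⟨n, 0, Shell_zero_mem A (by norm_num), ?_⟩
      refine (En_le_card A _).trans ?_
      have h2 : (Fintype.card Q : ℝ) / 4 ≤ Ms n := by
        simp only [hMs]
        rw [le_div_iff₀ (by positivity)]
        exact hn.le
      linarith [hMs0 n]
    classical
    refine Set.mem_iUnion.2 ⟨Nat.find hex, hc, ?_, Nat.find_spec hex⟩
    intro b hb
    rcases Nat.eq_zero_or_pos (Nat.find hex) with hz | hz
    · rw [hz]
      exact h0 b hb
    · obtain ⟨m, hm⟩ := Nat.exists_eq_succ_of_ne_zero hz.ne'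
      rw [hm, Nat.succ_eq_add_one, hMs1]
      by_contra hcon
      exact Nat.find_min hex (m := m) (by omega) ⟨b, hb, not_lt.1 hcon⟩
  set E : ℝ := Real.exp (Real.exp 8 * ∑ x, (a x : ℝ) * μ x ^ 2) with hE
  have hE0 : 0 ≤ E := (Real.exp_pos _).le
  have hone : ∀ n, ∫⁻ c in Sh n, ENNReal.ofReal (FG A a μ c) ≤
      ENNReal.ofReal (1 / 16 * E * (1 / 2) ^ n) * Hl A a 0 := by
    intro n
    refine (shell_bound hκ hκ1 A a hδ hcov hnice hfin hhalf μ (Ms n) (hMs0 n)).trans ?_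
    refine mul_le_mul' (ENNReal.ofReal_le_ofReal ?_) le_rfl
    have e1 : 2 * δ * Ms n = 2 ^ n := by
      simp only [hMs]
      field_simp
    have e2 : cb κ * Ms n = (cb κ / (2 * δ)) * 2 ^ n := by
      simp only [hMs]
      ring
    have h3 := Shell_num n (cb κ / (2 * δ)) (by
      rw [le_div_iff₀ (by positivity)]
      linarith)
    rw [e1, e2]
    calc _ = (Real.exp (2 ^ n) * (2 * Real.exp (-(cb κ / (2 * δ) * 2 ^ n)))) * E := by ring
      _ ≤ (1 / 16 * (1 / 2) ^ n) * E := mul_le_mul_of_nonneg_right h3 hE0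
      _ = _ := by ring
  calc _ ≤ ∫⁻ c in ⋃ n, Sh n, ENNReal.ofReal (FG A a μ c) := lintegral_mono_set hsub
    _ ≤ ∑' n, ∫⁻ c in Sh n, ENNReal.ofReal (FG A a μ c) := lintegral_iUnion_le _ _
    _ ≤ ∑' n, ENNReal.ofReal (1 / 16 * E * (1 / 2) ^ n) * Hl A a 0 := ENNReal.tsum_le_tsum hone
    _ = (∑' n, ENNReal.ofReal (1 / 16 * E * (1 / 2) ^ n)) * Hl A a 0 := ENNReal.tsum_mul_right
    _ = _ := by
      congr 1
      rw [← ENNReal.ofReal_tsum_of_nonneg (fun n => by positivity)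
        (summable_geometric_two.mul_left _), tsum_mul_left, tsum_geometric_two]
      congr 1
      ring

end P047F
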