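import Mathlib

/-!
# P047F II/W1: the majorant `ww = exp (-psi)`; derivative `gg` of `psi`

`psi t = - log cos (π t)` for `|t| ≤ 47/100`, continued quadratically with second derivative `1`.
-/

open Real

namespace P047F

/-- the derivative of `psi` -/
noncomputable def gg (t : ℝ) : ℝ :=
  if |t| ≤ 47 / 100 then π * Real.tan (π * t)
  else if 0 < t then π * Real.tan (π * (47 / 100)) + (t - 47 / 100)
  else -(π * Real.tan (π * (47 / 100))) + (t + 47 / 100)

/-- minus the logarithm of the majorant -/
noncomputable def psi (t : ℝ) : ℝ :=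
  if |t| ≤ 47 / 100 then - Real.log (Real.cos (π * t))
  else - Real.log (Real.cos (π * (47 / 100)))
    + π * Real.tan (π * (47 / 100)) * (|t| - 47 / 100) + (|t| - 47 / 100) ^ 2 / 2

/-- the majorant -/
noncomputable def ww (t : ℝ) : ℝ := Real.exp (- psi t)

/-- numerical: `sin (3π/100) ≥ 0.0941` (`x - x^3/6` type lower bound; `cos(47π/100) = sin(3π/100)`) -/
theorem cos_t0_ge : (941 : ℝ) / 10000 ≤ Real.cos (π * (47 / 100)) := by
  have h1 : Real.cos (π * (47 / 100)) = Real.sin (3 * π / 100) := by
    rw [← Real.cos_pi_div_two_sub]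
    congr 1
    ring
  rw [h1]
  have hp1 := Real.pi_gt_d6
  have hp2 := Real.pi_lt_d6
  set x := 3 * π / 100 with hx
  have hx1 : (0.09424 : ℝ) ≤ x := by rw [hx]; linarith
  have hx1' : (0.094247 : ℝ) ≤ x := by rw [hx]; linarith
  have hx2 : x ≤ 0.09425 := by rw [hx]; linarith
  have h2 := Real.sin_bound (x := x) (by rw [abs_le]; constructor <;> linarith)
  have h3 := (abs_le.1 h2).1
  have h0 : 0 ≤ x := by linarith
  rw [abs_of_nonneg h0] at h3
  have h4 : x ^ 3 ≤ 0.09425 ^ 3 := pow_le_pow_left₀ h0 hx2 3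
  have h5 : x ^ 5 ≤ 0.09425 ^ 5 := pow_le_pow_left₀ h0 hx2 5
  norm_num at h4 h5 ⊢
  linarith

private theorem W1_cos_pos {t : ℝ} (h : |t| ≤ 47 / 100) :
    Real.cos (π * (47 / 100)) ≤ Real.cos (π * t) := by
  have hpi := Real.pi_pos
  rw [← Real.cos_abs (π * t), abs_mul, abs_of_pos hpi]
  apply Real.cos_le_cos_of_nonneg_of_le_pi
  · positivity
  · nlinarith
  · exact mul_le_mul_of_nonneg_left h hpi.le

private theorem W1_cos_ge {t : ℝ} (h : |t| ≤ 47 / 100) : (941 : ℝ) / 10000 ≤ Real.cos (π * t) :=
  cos_t0_ge.trans (W1_cos_pos h)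

theorem gg_odd (t : ℝ) : gg (-t) = - gg t := by
  unfold gg
  rw [abs_neg]
  by_cases h : |t| ≤ 47 / 100
  · rw [if_pos h, if_pos h, mul_neg, Real.tan_neg]
    ring
  · rw [if_neg h, if_neg h]
    have h0 : t ≠ 0 := by
      rintro rfl
      apply h
      norm_num
    rcases lt_or_gt_of_ne h0 with h1 | h1
    · rw [if_pos (by linarith), if_neg (by linarith)]
      ring
    · rw [if_neg (by linarith), if_pos h1]
      ring

/-- truncation -/
private noncomputable def W1_c (t : ℝ) : ℝ := max (-(47 / 100)) (min (47 / 100) t)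

private theorem W1_c_abs (t : ℝ) : |W1_c t| ≤ 47 / 100 := by
  rw [abs_le]
  unfold W1_c
  refine ⟨le_max_left _ _, max_le (by norm_num) (min_le_left _ _)⟩

private theorem W1_gg (t : ℝ) : gg t = π * Real.tan (π * W1_c t) + (t - W1_c t) := by
  unfold gg
  by_cases h : |t| ≤ 47 / 100
  · rw [if_pos h]
    have h1 := abs_le.1 h
    have h2 : W1_c t = t := by
      unfold W1_c
      rw [min_eq_right h1.2, max_eq_right h1.1]
    rw [h2]
    ring
  · rw [if_neg h]
    push Not at h
    rcases lt_abs.1 h with h1 | h1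
    · rw [if_pos (by linarith)]
      have h2 : W1_c t = 47 / 100 := by
        unfold W1_c
        rw [min_eq_left h1.le, max_eq_right (by norm_num)]
      rw [h2]
    · rw [if_neg (by linarith)]
      have h2 : W1_c t = -(47 / 100) := by
        unfold W1_c
        rw [min_eq_right (by linarith), max_eq_left (by linarith)]
      rw [h2, mul_neg, Real.tan_neg]
      ring

private theorem W1_c_mono {s t : ℝ} (h : s ≤ t) : W1_c s ≤ W1_c t :=
  max_le_max le_rfl (min_le_min le_rfl h)

private theorem W1_c_lip {s t : ℝ} (h : s ≤ t) : W1_c t - W1_c s ≤ t - s := by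
  unfold W1_c
  rcases le_total (47 / 100) t with h1 | h1 <;> rcases le_total (47 / 100) s with h2 | h2 <;>
    rcases le_total (-(47 / 100)) t with h3 | h3 <;> rcases le_total (-(47 / 100)) s with h4 | h4 <;>
    simp only [min_eq_left, min_eq_right, max_eq_left, max_eq_right, h1, h2, h3, h4] <;>
    first
      | linarith
      | (norm_num; linarith)

private theorem W1_deriv {t : ℝ} (h : |t| ≤ 47 / 100) :
    HasDerivAt (fun t => π * Real.tan (π * t)) (π * (1 / Real.cos (π * t) ^ 2 * π)) t := by
  have hc : Real.cos (π * t) ≠ 0 := by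
    have := W1_cos_ge h
    linarith
  have h1 : HasDerivAt (fun t : ℝ => π * t) π t := by
    simpa using (hasDerivAt_id t).const_mul π
  exact ((Real.hasDerivAt_tan hc).comp t h1).const_mul π

private theorem W1_deriv_bd {t : ℝ} (h : |t| ≤ 47 / 100) :
    1 ≤ π * (1 / Real.cos (π * t) ^ 2 * π) ∧ π * (1 / Real.cos (π * t) ^ 2 * π) ≤ 1200 := by
  have hc := W1_cos_ge h
  have hc1 := Real.cos_le_one (π * t)
  have hp1 := Real.pi_gt_d2
  have hp2 := Real.pi_lt_d2
  have e : π * (1 / Real.cos (π * t) ^ 2 * π) = π ^ 2 / Real.cos (π * t) ^ 2 := by ring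
  have hcp : 0 < Real.cos (π * t) ^ 2 := by positivity
  rw [e]
  constructor
  · rw [le_div_iff₀ hcp]
    nlinarith
  · rw [div_le_iff₀ hcp]
    nlinarith

private theorem W1_h {s t : ℝ} (hs : |s| ≤ 47 / 100) (ht : |t| ≤ 47 / 100) (h : s ≤ t) :
    t - s ≤ π * Real.tan (π * t) - π * Real.tan (π * s) ∧
      π * Real.tan (π * t) - π * Real.tan (π * s) ≤ 1200 * (t - s) := by
  have hd : ∀ x ∈ Set.Icc (-(47 / 100 : ℝ)) (47 / 100), |x| ≤ 47 / 100 := fun x hx =>
    abs_le.2 hx
  have hcont : ContinuousOn (fun t => π * Real.tan (π * t)) (Set.Icc (-(47 / 100 : ℝ)) (47 / 100)) :=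
    fun x hx => (W1_deriv (hd x hx)).continuousAt.continuousWithinAt
  have hdiff : DifferentiableOn ℝ (fun t => π * Real.tan (π * t))
      (interior (Set.Icc (-(47 / 100 : ℝ)) (47 / 100))) :=
    fun x hx => (W1_deriv (hd x (interior_subset hx))).differentiableAt.differentiableWithinAt
  have hsm := abs_le.1 hs
  have htm := abs_le.1 ht
  constructor
  · have := (convex_Icc (-(47 / 100 : ℝ)) (47 / 100)).mul_sub_le_image_sub_of_le_deriv hcont hdiff
      (C := 1) (fun x hx => by
        rw [(W1_deriv (hd x (interior_subset hx))).deriv]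
        exact (W1_deriv_bd (hd x (interior_subset hx))).1) s hsm t htm h
    simpa using this
  · exact (convex_Icc (-(47 / 100 : ℝ)) (47 / 100)).image_sub_le_mul_sub_of_deriv_le hcont hdiff
      (fun x hx => by
        rw [(W1_deriv (hd x (interior_subset hx))).deriv]
        exact (W1_deriv_bd (hd x (interior_subset hx))).2) s hsm t htm h

/-- `gg` is Lipschitz with constant `1200` (`π² / cos²(47π/100) ≤ 1200`) -/
theorem gg_lip {s t : ℝ} (h : s ≤ t) : gg t - gg s ≤ 1200 * (t - s) := by
  have h1 := (W1_h (W1_c_abs s) (W1_c_abs t) (W1_c_mono h)).2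
  have h2 := W1_c_lip h
  have h3 := W1_c_mono h
  rw [W1_gg, W1_gg]
  linarith

/-- `gg` increases with slope at least `1` -/
theorem gg_incr {s t : ℝ} (h : s ≤ t) : t - s ≤ gg t - gg s := by
  have h1 := (W1_h (W1_c_abs s) (W1_c_abs t) (W1_c_mono h)).1
  rw [W1_gg, W1_gg]
  linarith

theorem psi_even (t : ℝ) : psi (-t) = psi t := by
  unfold psi
  rw [abs_neg, mul_neg, Real.cos_neg]

theorem psi_zero : psi 0 = 0 := by
  unfold psi
  rw [if_pos (by norm_num)]
  simp

private theorem W1_log {t : ℝ} (h : |t| ≤ 47 / 100) :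
    HasDerivAt (fun t => - Real.log (Real.cos (π * t))) (π * Real.tan (π * t)) t := by
  have hc : Real.cos (π * t) ≠ 0 := by
    have := W1_cos_ge h
    linarith
  have h1 : HasDerivAt (fun t : ℝ => π * t) π t := by
    simpa using (hasDerivAt_id t).const_mul π
  have h2 := ((h1.cos).log hc).neg
  refine h2.congr_deriv ?_
  rw [Real.tan_eq_sin_div_cos]
  field_simp

private theorem W1_quad (t : ℝ) :
    HasDerivAt (fun t => - Real.log (Real.cos (π * (47 / 100)))
    + π * Real.tan (π * (47 / 100)) * (t - 47 / 100) + (t - 47 / 100) ^ 2 / 2)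
      (π * Real.tan (π * (47 / 100)) + (t - 47 / 100)) t := by
  have h1 : HasDerivAt (fun t : ℝ => t - 47 / 100) 1 t := (hasDerivAt_id t).sub_const _
  have h2 := (((h1.const_mul (π * Real.tan (π * (47 / 100)))).const_add
    (- Real.log (Real.cos (π * (47 / 100))))).add ((h1.pow 2).div_const 2))
  refine h2.congr_deriv ?_
  ring

private theorem W1_psi_nonneg {t : ℝ} (h : 0 ≤ t) : HasDerivAt psi (gg t) t := by
  rcases lt_trichotomy t (47 / 100) with h1 | h1 | h1
  · have h2 : |t| ≤ 47 / 100 := abs_le.2 ⟨by linarith, h1.le⟩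
    have h3 : gg t = π * Real.tan (π * t) := by unfold gg; rw [if_pos h2]
    rw [h3]
    refine (W1_log h2).congr_of_eventuallyEq ?_
    filter_upwards [isOpen_Ioo.mem_nhds (⟨by linarith, h1⟩ : t ∈ Set.Ioo (-(47 / 100)) (47 / 100))]
      with s hs
    unfold psi
    rw [if_pos (abs_le.2 ⟨hs.1.le, hs.2.le⟩)]
  · have h2 : |t| ≤ 47 / 100 := abs_le.2 ⟨by linarith, h1.le⟩
    have h3 : gg t = π * Real.tan (π * t) := by unfold gg; rw [if_pos h2]
    rw [h3]
    have a1 : HasDerivWithinAt psi (π * Real.tan (π * t)) (Set.Icc 0 t) t := by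
      refine (W1_log h2).hasDerivWithinAt.congr (fun s hs => ?_) ?_
      · unfold psi
        rw [if_pos (abs_le.2 ⟨by linarith [hs.1], by linarith [hs.2]⟩)]
      · unfold psi
        rw [if_pos h2]
    have a2 : HasDerivWithinAt psi (π * Real.tan (π * t)) (Set.Ici t) t := by
      have h4 := (W1_quad t).hasDerivWithinAt (s := Set.Ici t)
      have h5 : π * Real.tan (π * (47 / 100)) + (t - 47 / 100) = π * Real.tan (π * t) := by
        rw [h1]; ring
      rw [h5] at h4
      have key : ∀ s ∈ Set.Ici t, psi s = - Real.log (Real.cos (π * (47 / 100)))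
          + π * Real.tan (π * (47 / 100)) * (s - 47 / 100) + (s - 47 / 100) ^ 2 / 2 := by
        intro s hs
        have hs' : t ≤ s := hs
        have hs0 : |s| = s := abs_of_nonneg (by linarith)
        unfold psi
        rw [hs0]
        split_ifs with h6
        · have h7 : s = 47 / 100 := le_antisymm h6 (by linarith)
          rw [h7]
          ring
        · rfl
      exact h4.congr key (key t (Set.mem_Ici.2 le_rfl))
    have a3 : HasDerivWithinAt psi (π * Real.tan (π * t)) (Set.Icc 0 t ∪ Set.Ici t) t := a1.union a2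
    refine a3.hasDerivAt ?_
    filter_upwards [lt_mem_nhds (by linarith : (0 : ℝ) < t)] with s hs
    rcases le_total s t with h6 | h6
    · exact Or.inl ⟨hs.le, h6⟩
    · exact Or.inr h6
  · have h2 : ¬ |t| ≤ 47 / 100 := by
      rw [abs_of_nonneg h]
      linarith
    have h3 : gg t = π * Real.tan (π * (47 / 100)) + (t - 47 / 100) := by
      unfold gg
      rw [if_neg h2, if_pos (by linarith)]
    rw [h3]
    refine (W1_quad t).congr_of_eventuallyEq ?_
    filter_upwards [lt_mem_nhds h1] with s hs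
    unfold psi
    rw [abs_of_nonneg (by linarith), if_neg (by linarith)]

theorem hasDerivAt_psi (t : ℝ) : HasDerivAt psi (gg t) t := by
  rcases le_total 0 t with h | h
  · exact W1_psi_nonneg h
  · have h1 := W1_psi_nonneg (t := -t) (by linarith)
    have h2 : HasDerivAt (fun s => psi (-s)) (gg (-t) * -1) t :=
      h1.comp t (hasDerivAt_neg t)
    have h3 : (fun s => psi (-s)) = psi := funext psi_even
    rw [h3, gg_odd] at h2
    refine h2.congr_deriv ?_
    ring

end P047F
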